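import Vale.Agent.P127.U.Lam.Final
import Vale.Agent.P127.M3.FrontI
import Vale.Agent.P117.K.KTC
import Vale.Agent.P117.K.BrW

/-!
# P127 / H864 : the discrete maximal inequality for Katz-Tao families of lines
-/

set_option autoImplicit false

namespace Vale.Agent.P127.H864

open Finset Vale.Agent.P127.M3

variable {m : ℕ}

/-- restricted strong type -/
lemma strong_of {B : ℝ} {L : ℕ} {T : Finset ((Fin m → ℤ) × (Fin m → ℤ))}
    {E : Finset ((Fin m → ℤ) × ℕ)}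
    (H : ∀ (T' : Finset ((Fin m → ℤ) × (Fin m → ℤ))), T' ⊆ T → ∀ k : ℕ,
      (∀ l ∈ T', k ≤ hits L l E) →
      (k : ℝ) ^ (m + 1) * #T' ≤ B * #E) :
    ∑ l ∈ T, (hits L l E : ℝ) ^ (m + 1) ≤
      2 ^ (m + 1) * (L + 1) * (B * #E) := by
  classical
  set A : ℝ := B * #E with hA
  have h1 : ∀ l ∈ T, (hits L l E : ℝ) ^ (m + 1) ≤
      ∑ i ∈ range (L + 1), if 2 ^ i ≤ hits L l E ∧ hits L l E < 2 ^ (i + 1) then
        (2 : ℝ) ^ (m + 1) * ((2 ^ i : ℕ) : ℝ) ^ (m + 1) else 0 := by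
    intro l _
    rcases Nat.eq_zero_or_pos (hits L l E) with h0 | h0
    · rw [h0]
      simp only [CharP.cast_eq_zero, ne_eq, Nat.add_eq_zero_iff, one_ne_zero, and_false,
        not_false_eq_true, zero_pow]
      refine sum_nonneg fun i _ => ?_
      split_ifs
      · positivity
      · exact le_rfl
    · set i := Nat.log 2 (hits L l E) with hi
      have h2 : 2 ^ i ≤ hits L l E := Nat.pow_log_le_self 2 h0.ne'
      have h3 : hits L l E < 2 ^ (i + 1) := Nat.lt_pow_succ_log_self (by norm_num) _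
      have h4 : i ∈ range (L + 1) := by
        rw [mem_range, Nat.lt_succ_iff]
        exact (Nat.pow_le_pow_iff_right (by norm_num : 1 < 2)).1 (h2.trans (hits_le L l E))
      refine le_trans ?_ (single_le_sum (f := fun i => if 2 ^ i ≤ hits L l E ∧
        hits L l E < 2 ^ (i + 1) then (2 : ℝ) ^ (m + 1) * ((2 ^ i : ℕ) : ℝ) ^ (m + 1) else 0)
        (fun i _ => ?_) h4)
      · rw [if_pos ⟨h2, h3⟩, ← mul_pow]
        refine pow_le_pow_left₀ (by positivity) ?_ _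
        have : ((hits L l E : ℕ) : ℝ) ≤ ((2 ^ (i + 1) : ℕ) : ℝ) := by exact_mod_cast h3.le
        refine this.trans (le_of_eq ?_)
        push_cast
        ring
      · split_ifs
        · positivity
        · exact le_rfl
  refine (sum_le_sum h1).trans ?_
  rw [sum_comm]
  have h5 : ∀ i ∈ range (L + 1), (∑ l ∈ T, if 2 ^ i ≤ hits L l E ∧ hits L l E < 2 ^ (i + 1) then
        (2 : ℝ) ^ (m + 1) * ((2 ^ i : ℕ) : ℝ) ^ (m + 1) else 0) ≤ 2 ^ (m + 1) * A := by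
    intro i _
    rw [← sum_filter, sum_const, nsmul_eq_mul]
    have h6 := H (T.filter fun l => 2 ^ i ≤ hits L l E ∧ hits L l E < 2 ^ (i + 1))
      (filter_subset _ _) (2 ^ i) (fun l hl => (mem_filter.1 hl).2.1)
    calc _ = (2 : ℝ) ^ (m + 1) * ((((2 ^ i : ℕ) : ℝ)) ^ (m + 1) *
          #(T.filter fun l => 2 ^ i ≤ hits L l E ∧ hits L l E < 2 ^ (i + 1))) := by ring
      _ ≤ _ := mul_le_mul_of_nonneg_left h6 (by positivity)
  refine (sum_le_sum h5).trans (le_of_eq ?_)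
  rw [sum_const, card_range, nsmul_eq_mul]
  push_cast
  ring

/-- the discrete maximal inequality for functions on a finite set `S` -/
lemma disc_real' {A : ℝ} (hA : 0 ≤ A) {L : ℕ} {T : Finset ((Fin m → ℤ) × (Fin m → ℤ))}
    (hT : (#T : ℝ) ≤ A)
    (H : ∀ (T' : Finset ((Fin m → ℤ) × (Fin m → ℤ))), T' ⊆ T →
      ∀ (E : Finset ((Fin m → ℤ) × ℕ)) (k : ℕ),
      (∀ l ∈ T', k ≤ hits L l E) →
      (k : ℝ) ^ (m + 1) * #T' ≤ A * #E)
    (S : Finset ((Fin m → ℤ) × ℕ)) (hS : ∀ l ∈ T, ∀ t ∈ range (2 ^ L), (pos L l t, t) ∈ S)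
    (f : (Fin m → ℤ) × ℕ → ℝ) (hf : ∀ z, 0 ≤ f z) :
    ∑ l ∈ T, (∑ t ∈ range (2 ^ L), f (pos L l t, t)) ^ (m + 1) ≤
      ((L : ℝ) + 2) ^ m * (2 ^ (m + 1) * (2 ^ (m + 1) * (L + 1) * A) + A) *
        ∑ z ∈ S, f z ^ (m + 1) := by
  classical
  rcases T.eq_empty_or_nonempty with rfl | ⟨l0, hl0⟩
  · rw [sum_empty]
    have : 0 ≤ ∑ z ∈ S, f z ^ (m + 1) := sum_nonneg fun z _ => pow_nonneg (hf z) _
    positivity
  have hSne : S.Nonempty := ⟨_, hS l0 hl0 0 (mem_range.2 (by positivity))⟩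
  obtain ⟨z0, hz0, hmax⟩ := exists_max_image S f hSne
  set M := f z0 with hM
  have hM0 : 0 ≤ M := hf z0
  have hMS : M ^ (m + 1) ≤ ∑ z ∈ S, f z ^ (m + 1) :=
    single_le_sum (f := fun z => f z ^ (m + 1)) (fun z _ => pow_nonneg (hf z) _) hz0
  set Ej : ℕ → Finset ((Fin m → ℤ) × ℕ) := fun j =>
    S.filter fun z => M * (1 / 2) ^ (j + 1) < f z ∧ f z ≤ M * (1 / 2) ^ j with hEj
  -- pointwise bound
  have hpt : ∀ z ∈ S, f z ≤ ∑ j ∈ range (L + 1), (if z ∈ Ej j then M * (1 / 2) ^ j else 0) +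
      M * (1 / 2) ^ (L + 1) := by
    intro z hz
    have hnn : 0 ≤ ∑ j ∈ range (L + 1), (if z ∈ Ej j then M * (1 / 2) ^ j else 0) := by
      refine sum_nonneg fun j _ => ?_
      split_ifs
      · positivity
      · exact le_rfl
    by_cases hlow : f z ≤ M * (1 / 2) ^ (L + 1)
    · linarith
    · push Not at hlow
      have hex : ∃ j, M * (1 / 2) ^ (j + 1) < f z := ⟨L, hlow⟩
      set j := Nat.find hex with hj
      have hj1 : M * (1 / 2) ^ (j + 1) < f z := Nat.find_spec hex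
      have hjL : j ≤ L := Nat.find_min' hex hlow
      have hj2 : f z ≤ M * (1 / 2) ^ j := by
        rcases Nat.eq_zero_or_pos j with h0 | h0
        · rw [h0, pow_zero, mul_one]
          exact hmax z hz
        · have := Nat.find_min hex (m := j - 1) (by omega)
          push Not at this
          rwa [Nat.sub_add_cancel h0] at this
      have h1 : (if z ∈ Ej j then M * (1 / 2) ^ j else 0) ≤
          ∑ j ∈ range (L + 1), (if z ∈ Ej j then M * (1 / 2) ^ j else 0) := by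
        refine single_le_sum (f := fun j => if z ∈ Ej j then M * (1 / 2) ^ j else 0)
          (fun j _ => ?_) (mem_range.2 (by omega))
        split_ifs
        · positivity
        · exact le_rfl
      rw [if_pos (mem_filter.2 ⟨hz, hj1, hj2⟩)] at h1
      have : 0 ≤ M * (1 / 2) ^ (L + 1) := by positivity
      linarith
  -- the sum over a line
  have hline : ∀ l ∈ T, ∑ t ∈ range (2 ^ L), f (pos L l t, t) ≤
      ∑ j ∈ range (L + 1), M * (1 / 2) ^ j * hits L l (Ej j) + M := by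
    intro l hl
    calc _ ≤ ∑ t ∈ range (2 ^ L), (∑ j ∈ range (L + 1),
          (if (pos L l t, t) ∈ Ej j then M * (1 / 2) ^ j else 0) + M * (1 / 2) ^ (L + 1)) :=
          sum_le_sum fun t ht => hpt _ (hS l hl t ht)
      _ = ∑ j ∈ range (L + 1), M * (1 / 2) ^ j * hits L l (Ej j) +
          2 ^ L * (M * (1 / 2) ^ (L + 1)) := by
          rw [sum_add_distrib, sum_comm, sum_const, card_range, nsmul_eq_mul]
          push_cast
          congr 1
          refine sum_congr rfl fun j _ => ?_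
          rw [← sum_filter, sum_const, nsmul_eq_mul, hits]
          ring
      _ ≤ _ := by
          refine add_le_add le_rfl ?_
          have : (2 : ℝ) ^ L * (M * (1 / 2) ^ (L + 1)) = M / 2 := by
            rw [pow_succ, one_div, inv_pow]
            field_simp
          rw [this]
          linarith
  have hpow : ∀ l ∈ T, (∑ t ∈ range (2 ^ L), f (pos L l t, t)) ^ (m + 1) ≤
      ((L : ℝ) + 2) ^ m * (∑ j ∈ range (L + 1), (M * (1 / 2) ^ j * hits L l (Ej j)) ^ (m + 1) +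
        M ^ (m + 1)) := by
    intro l hl
    have h1 := pow_le_pow_left₀ (sum_nonneg fun t _ => hf _) (hline l hl) (m + 1)
    refine h1.trans ?_
    set g : ℕ → ℝ := fun j => if j < L + 1 then M * (1 / 2) ^ j * hits L l (Ej j) else M with hg
    have h2 : ∑ j ∈ range (L + 2), g j =
        ∑ j ∈ range (L + 1), M * (1 / 2) ^ j * hits L l (Ej j) + M := by
      rw [sum_range_succ]
      congr 1
      · refine sum_congr rfl fun j hj => ?_
        rw [hg]
        simp only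
        rw [if_pos (mem_range.1 hj)]
      · rw [hg]
        simp
    have h3 : ∑ j ∈ range (L + 2), g j ^ (m + 1) =
        ∑ j ∈ range (L + 1), (M * (1 / 2) ^ j * hits L l (Ej j)) ^ (m + 1) + M ^ (m + 1) := by
      rw [sum_range_succ]
      congr 1
      · refine sum_congr rfl fun j hj => ?_
        rw [hg]
        simp only
        rw [if_pos (mem_range.1 hj)]
      · rw [hg]
        simp
    have h4 := pow_sum_div_card_le_sum_pow (s := range (L + 2)) (f := g) (n := m)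
      (fun j _ => by
        rw [hg]
        simp only
        split_ifs
        · positivity
        · exact hM0)
    rw [h2, h3, card_range, div_le_iff₀ (by positivity)] at h4
    refine h4.trans (le_of_eq ?_)
    push_cast
    ring
  -- sum over the lines
  have hstrong : ∀ j, ∑ l ∈ T, (hits L l (Ej j) : ℝ) ^ (m + 1) ≤
      2 ^ (m + 1) * (L + 1) * (A * #(Ej j)) := fun j =>
    strong_of fun T' hT' k hk => H T' hT' (Ej j) k hk
  set B : ℝ := 2 ^ (m + 1) * (L + 1) * A with hB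
  have hB0 : 0 ≤ B := by positivity
  have hlev : ∀ j, (M * (1 / 2) ^ j) ^ (m + 1) * #(Ej j) ≤
      2 ^ (m + 1) * ∑ z ∈ Ej j, f z ^ (m + 1) := by
    intro j
    have h1 : ∀ z ∈ Ej j, (M * (1 / 2) ^ (j + 1)) ^ (m + 1) ≤ f z ^ (m + 1) := by
      intro z hz
      exact pow_le_pow_left₀ (by positivity) (mem_filter.1 hz).2.1.le _
    have h2 := sum_le_sum h1
    rw [sum_const, nsmul_eq_mul] at h2
    calc (M * (1 / 2) ^ j) ^ (m + 1) * #(Ej j) =
        2 ^ (m + 1) * (#(Ej j) * (M * (1 / 2) ^ (j + 1)) ^ (m + 1)) := by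
          have : M * (1 / 2) ^ j = 2 * (M * (1 / 2) ^ (j + 1)) := by
            rw [pow_succ]
            ring
          rw [this, mul_pow]
          ring
      _ ≤ _ := mul_le_mul_of_nonneg_left h2 (by positivity)
  have hdisj : ∑ j ∈ range (L + 1), ∑ z ∈ Ej j, f z ^ (m + 1) ≤ ∑ z ∈ S, f z ^ (m + 1) := by
    rw [← sum_biUnion]
    · refine sum_le_sum_of_subset_of_nonneg ?_ fun z _ _ => pow_nonneg (hf z) _
      intro z hz
      obtain ⟨j, _, hj⟩ := mem_biUnion.1 hz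
      exact (mem_filter.1 hj).1
    · intro j _ j' _ hjj
      rw [Function.onFun, disjoint_left]
      intro z hz hz'
      have h1 := (mem_filter.1 hz).2
      have h2 := (mem_filter.1 hz').2
      rcases lt_or_gt_of_ne hjj with h | h
      · have h3 : M * (1 / 2) ^ j' ≤ M * (1 / 2) ^ (j + 1) :=
          mul_le_mul_of_nonneg_left (pow_le_pow_of_le_one (by norm_num) (by norm_num) h) hM0
        linarith [h1.1, h2.2]
      · have h3 : M * (1 / 2) ^ j ≤ M * (1 / 2) ^ (j' + 1) :=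
          mul_le_mul_of_nonneg_left (pow_le_pow_of_le_one (by norm_num) (by norm_num) h) hM0
        linarith [h2.1, h1.2]
  calc ∑ l ∈ T, (∑ t ∈ range (2 ^ L), f (pos L l t, t)) ^ (m + 1)
      ≤ ∑ l ∈ T, ((L : ℝ) + 2) ^ m * (∑ j ∈ range (L + 1),
        (M * (1 / 2) ^ j * hits L l (Ej j)) ^ (m + 1) + M ^ (m + 1)) := sum_le_sum hpow
    _ = ((L : ℝ) + 2) ^ m * (∑ j ∈ range (L + 1), (M * (1 / 2) ^ j) ^ (m + 1) *
          ∑ l ∈ T, (hits L l (Ej j) : ℝ) ^ (m + 1) + #T * M ^ (m + 1)) := by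
        rw [← mul_sum, sum_add_distrib, sum_comm, sum_const, nsmul_eq_mul]
        have : ∑ j ∈ range (L + 1), ∑ l ∈ T, (M * (1 / 2) ^ j * hits L l (Ej j)) ^ (m + 1) =
            ∑ j ∈ range (L + 1), (M * (1 / 2) ^ j) ^ (m + 1) *
              ∑ l ∈ T, (hits L l (Ej j) : ℝ) ^ (m + 1) := by
          refine sum_congr rfl fun j _ => ?_
          rw [mul_sum]
          exact sum_congr rfl fun l _ => mul_pow _ _ _
        rw [this]
    _ ≤ ((L : ℝ) + 2) ^ m * (∑ j ∈ range (L + 1),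
          B * (2 ^ (m + 1) * ∑ z ∈ Ej j, f z ^ (m + 1)) +
          A * ∑ z ∈ S, f z ^ (m + 1)) := by
        refine mul_le_mul_of_nonneg_left (add_le_add (sum_le_sum fun j _ => ?_) ?_) (by positivity)
        · calc (M * (1 / 2) ^ j) ^ (m + 1) * ∑ l ∈ T, (hits L l (Ej j) : ℝ) ^ (m + 1)
              ≤ (M * (1 / 2) ^ j) ^ (m + 1) * (2 ^ (m + 1) * (L + 1) *
                (A * #(Ej j))) :=
                mul_le_mul_of_nonneg_left (hstrong j) (by positivity)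
            _ = B * ((M * (1 / 2) ^ j) ^ (m + 1) * #(Ej j)) := by rw [hB]; ring
            _ ≤ _ := mul_le_mul_of_nonneg_left (hlev j) hB0
        · refine mul_le_mul hT hMS (by positivity) hA
    _ = ((L : ℝ) + 2) ^ m * (B * 2 ^ (m + 1) * ∑ j ∈ range (L + 1), ∑ z ∈ Ej j, f z ^ (m + 1) +
          A * ∑ z ∈ S, f z ^ (m + 1)) := by
        have : ∑ j ∈ range (L + 1), B * (2 ^ (m + 1) * ∑ z ∈ Ej j, f z ^ (m + 1)) =
            B * 2 ^ (m + 1) * ∑ j ∈ range (L + 1), ∑ z ∈ Ej j, f z ^ (m + 1) := by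
          rw [mul_sum]
          exact sum_congr rfl fun j _ => by ring
        rw [this]
    _ ≤ ((L : ℝ) + 2) ^ m * (B * 2 ^ (m + 1) * ∑ z ∈ S, f z ^ (m + 1) +
          A * ∑ z ∈ S, f z ^ (m + 1)) := by
        refine mul_le_mul_of_nonneg_left (add_le_add ?_ le_rfl) (by positivity)
        exact mul_le_mul_of_nonneg_left hdisj (by positivity)
    _ = _ := by ring



/-- lines of the plane family -/
abbrev Ln2 := (Fin 2 → ℤ) × (Fin 2 → ℤ)

/-- **counting form for Katz-Tao families**, from the finite inequality with price `2` -/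
theorem kt_count {ε : ℝ} (hε : 0 < ε) : ∃ C : ℝ, 0 < C ∧ ∀ (L : ℕ) (T : Finset Ln2) (K : ℝ)
    (E : Finset ((Fin 2 → ℤ) × ℕ)) (k : ℕ), 1 ≤ K →
    (∀ l ∈ T, ∀ i, (0 ≤ l.1 i ∧ l.1 i < 2 ^ L) ∧ (0 ≤ l.2 i ∧ l.2 i < 2 ^ L)) →
    Vale.Agent.P117.K.KTf K T → (∀ l ∈ T, k ≤ hits L l E) →
    (k : ℝ) ^ (2 + 1) * #T ≤ C * K * (2 : ℝ) ^ (ε * L) * 2 ^ (2 * L) * #E := by
  have hK : Vale.Agent.P117.K.StKTc (ε / 2 / 2) 2 :=
    Vale.Agent.P117.K.stKTC (ε / 2 / 2) 2 (by positivity) (by norm_num)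
      (Vale.Agent.P117.K.stKT_of_JF (U.Final.jf2 (ε / 2) (by positivity)))
  obtain ⟨C, hC, H⟩ := hK (ε / 2) (by positivity)
  refine ⟨C + 1, by positivity, ?_⟩
  intro L T K E k hK1 hT hKT hk
  rcases Nat.eq_zero_or_pos k with rfl | hk0
  · simp only [CharP.cast_eq_zero, ne_eq, Nat.add_eq_zero_iff, OfNat.ofNat_ne_zero, one_ne_zero,
      and_self, not_false_eq_true, zero_pow, zero_mul]
    positivity
  have h1 := H L T K E k hK1 hT hKT hk0 hk
  have hkr : (0 : ℝ) < k := by exact_mod_cast hk0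
  have h2 : ((2 : ℝ) ^ L / k) ^ (2 : ℝ) = 2 ^ (2 * L) / k ^ 2 := by
    rw [show (2 : ℝ) = ((2 : ℕ) : ℝ) by norm_num, Real.rpow_natCast, div_pow, ← pow_mul]
    congr 2
    ring
  have h3 : 2 * (ε / 2 / 2) + ε / 2 = ε := by ring
  rw [h2, h3] at h1
  have h4 : (k : ℝ) ^ 2 * ((k : ℝ) * #T) ≤
      (k : ℝ) ^ 2 * (C * K * (2 : ℝ) ^ (ε * L) * (2 ^ (2 * L) / k ^ 2) * #E) :=
    mul_le_mul_of_nonneg_left h1 (by positivity)
  have h5 : (k : ℝ) ^ 2 * (C * K * (2 : ℝ) ^ (ε * L) * (2 ^ (2 * L) / k ^ 2) * #E) =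
      C * K * (2 : ℝ) ^ (ε * L) * 2 ^ (2 * L) * #E := by
    field_simp
  rw [h5] at h4
  calc (k : ℝ) ^ (2 + 1) * #T = (k : ℝ) ^ 2 * ((k : ℝ) * #T) := by ring
    _ ≤ C * K * (2 : ℝ) ^ (ε * L) * 2 ^ (2 * L) * #E := h4
    _ ≤ (C + 1) * K * (2 : ℝ) ^ (ε * L) * 2 ^ (2 * L) * #E := by
        gcongr
        linarith

/-- **the discrete maximal inequality for a Katz-Tao set of lines** -/
theorem kt_set {ε : ℝ} (hε : 0 < ε) : ∃ C : ℝ, 0 < C ∧ ∀ (L : ℕ) (T : Finset Ln2) (K : ℝ), 1 ≤ K →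
    (∀ l ∈ T, ∀ i, (0 ≤ l.1 i ∧ l.1 i < 2 ^ L) ∧ (0 ≤ l.2 i ∧ l.2 i < 2 ^ L)) →
    Vale.Agent.P117.K.KTf K T → ∀ G : (Fin 2 → ℤ) × ℕ → ENNReal,
      ∑ l ∈ T, (∑ t ∈ range (2 ^ L), G (pos L l t, t)) ^ (2 + 1) ≤
        ENNReal.ofReal (C * K * (2 : ℝ) ^ (ε * L) * 2 ^ (2 * L)) * ∑' z, G z ^ (2 + 1) := by
  classical
  obtain ⟨C, hC, H⟩ := kt_count (ε := ε / 2) (by positivity)
  obtain ⟨C1, hC1, H1⟩ := poly_le (2 + 1) (ε := ε / 2) (by positivity)
  refine ⟨C1 * (2 ^ (2 + 1) * 2 ^ (2 + 1) + 1) * (C + 1), by positivity, ?_⟩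
  intro L T K hK1 hT hKT G
  have hK0 : 0 < K := by linarith
  set R : ℝ := C1 * (2 ^ (2 + 1) * 2 ^ (2 + 1) + 1) * (C + 1) * K * (2 : ℝ) ^ (ε * L) *
    2 ^ (2 * L) with hR
  have hR0 : 0 < R := by positivity
  by_cases htop : ∑' z, G z ^ (2 + 1) = ⊤
  · rw [htop, ENNReal.mul_top (by simpa using hR0)]
    exact le_top
  have hG : ∀ z, G z ≠ ⊤ := by
    intro z hz
    have h0 := ENNReal.ne_top_of_tsum_ne_top htop z
    exact h0 (by rw [hz]; exact ENNReal.top_pow (Nat.succ_ne_zero 2))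
  set f : (Fin 2 → ℤ) × ℕ → ℝ := fun z => (G z).toReal with hf
  have hGf : ∀ z, G z = ENNReal.ofReal (f z) := fun z => (ENNReal.ofReal_toReal (hG z)).symm
  have hf0 : ∀ z, 0 ≤ f z := fun z => ENNReal.toReal_nonneg
  set S : Finset ((Fin 2 → ℤ) × ℕ) :=
    T.biUnion fun l => (range (2 ^ L)).image fun t => (pos L l t, t) with hS
  set A : ℝ := (C + 1) * K * (2 : ℝ) ^ (ε / 2 * L) * 2 ^ (2 * L) with hA
  have hX1 : (1 : ℝ) ≤ (2 : ℝ) ^ (ε / 2 * L) := Real.one_le_rpow (by norm_num) (by positivity)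
  have hA0 : 0 ≤ A := by positivity
  have hTA : (#T : ℝ) ≤ A := by
    refine (Vale.Agent.P117.K.KTf.card_le hKT hT).trans ?_
    have e : (2 : ℝ) ^ (2 * L) = 2 ^ L * 2 ^ L := by rw [← pow_add]; congr 1; ring
    rw [hA, e]
    have h2 : K * 1 ≤ (C + 1) * K * (2 : ℝ) ^ (ε / 2 * L) := by
      have : K ≤ (C + 1) * K := by nlinarith
      calc K * 1 ≤ ((C + 1) * K) * (2 : ℝ) ^ (ε / 2 * L) :=
            mul_le_mul this hX1 zero_le_one (by positivity)
        _ = _ := rfl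
    calc K * (2 ^ L * 2 ^ L) = K * 1 * (2 ^ L * 2 ^ L) := by ring
      _ ≤ (C + 1) * K * (2 : ℝ) ^ (ε / 2 * L) * (2 ^ L * 2 ^ L) :=
          mul_le_mul_of_nonneg_right h2 (by positivity)
  have key := disc_real' hA0 hTA
    (fun T' hT' E k hk => by
      refine (H L T' K E k hK1 (fun l hl => hT l (hT' hl))
        (Vale.Agent.P117.K.KTf.mono hKT hT') hk).trans ?_
      have hP : 0 ≤ K * (2 : ℝ) ^ (ε / 2 * L) * 2 ^ (2 * L) * #E :=
        mul_nonneg (by positivity) (Nat.cast_nonneg _)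
      calc C * K * (2 : ℝ) ^ (ε / 2 * L) * 2 ^ (2 * L) * #E
          = C * (K * (2 : ℝ) ^ (ε / 2 * L) * 2 ^ (2 * L) * #E) := by ring
        _ ≤ (C + 1) * (K * (2 : ℝ) ^ (ε / 2 * L) * 2 ^ (2 * L) * #E) :=
            mul_le_mul_of_nonneg_right (by linarith) hP
        _ = A * #E := by rw [hA]; ring) S
    (fun l hl t ht => mem_biUnion.2 ⟨l, hl, mem_image.2 ⟨t, ht, rfl⟩⟩) f hf0
  have hS0 : 0 ≤ ∑ z ∈ S, f z ^ (2 + 1) := sum_nonneg fun z _ => pow_nonneg (hf0 z) _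
  have hconst : ((L : ℝ) + 2) ^ 2 * (2 ^ (2 + 1) * (2 ^ (2 + 1) * (L + 1) * A) + A) ≤ R := by
    have h2 : (2 : ℝ) ^ (ε * L) = (2 : ℝ) ^ (ε / 2 * L) * (2 : ℝ) ^ (ε / 2 * L) := by
      rw [← Real.rpow_add (by norm_num)]
      congr 1
      ring
    have hL : (0 : ℝ) ≤ L := Nat.cast_nonneg L
    have h3 : (2 : ℝ) ^ (2 + 1) * (2 ^ (2 + 1) * (L + 1) * A) + A ≤
        ((L : ℝ) + 2) * ((2 ^ (2 + 1) * 2 ^ (2 + 1) + 1) * A) := by
      nlinarith [mul_nonneg hL hA0]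
    calc ((L : ℝ) + 2) ^ 2 * (2 ^ (2 + 1) * (2 ^ (2 + 1) * (L + 1) * A) + A)
        ≤ ((L : ℝ) + 2) ^ 2 * (((L : ℝ) + 2) * ((2 ^ (2 + 1) * 2 ^ (2 + 1) + 1) * A)) :=
          mul_le_mul_of_nonneg_left h3 (by positivity)
      _ = ((L : ℝ) + 2) ^ (2 + 1) * ((2 ^ (2 + 1) * 2 ^ (2 + 1) + 1) * A) := by ring
      _ ≤ (C1 * (2 : ℝ) ^ (ε / 2 * L)) * ((2 ^ (2 + 1) * 2 ^ (2 + 1) + 1) * A) :=
          mul_le_mul_of_nonneg_right (H1 L) (by positivity)
      _ = R := by rw [hR, h2, hA]; ring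
  have hLs : ∑ l ∈ T, (∑ t ∈ range (2 ^ L), G (pos L l t, t)) ^ (2 + 1) =
      ENNReal.ofReal (∑ l ∈ T, (∑ t ∈ range (2 ^ L), f (pos L l t, t)) ^ (2 + 1)) := by
    rw [ENNReal.ofReal_sum_of_nonneg (fun l _ => pow_nonneg (sum_nonneg fun t _ => hf0 _) _)]
    refine sum_congr rfl fun l _ => ?_
    rw [ENNReal.ofReal_pow (sum_nonneg fun t _ => hf0 _),
      ENNReal.ofReal_sum_of_nonneg (fun t _ => hf0 _)]
    congr 1
    exact sum_congr rfl fun t _ => hGf _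
  have hRs : ENNReal.ofReal (∑ z ∈ S, f z ^ (2 + 1)) ≤ ∑' z, G z ^ (2 + 1) := by
    rw [ENNReal.ofReal_sum_of_nonneg (fun z _ => pow_nonneg (hf0 z) _)]
    refine le_trans (le_of_eq ?_) (ENNReal.sum_le_tsum S)
    refine sum_congr rfl fun z _ => ?_
    rw [ENNReal.ofReal_pow (hf0 z), ← hGf]
  rw [hLs]
  refine (ENNReal.ofReal_le_ofReal (key.trans (mul_le_mul_of_nonneg_right hconst hS0))).trans ?_
  rw [ENNReal.ofReal_mul hR0.le]
  exact mul_le_mul_right hRs _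

end Vale.Agent.P127.H864
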