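import Vale.Agent.P127.H864.Disc

/-!
# P127 / H864 : the discrete maximal inequality for Katz-Tao families with multiplicities
-/

set_option autoImplicit false

namespace Vale.Agent.P127.H864

open Finset Vale.Agent.P127.M3

/-- Katz-Tao condition with constant `Λ` for the lines `l i`, `i ∈ I`, counted with multiplicity -/
def WKT {ι : Type} (Λ : ℝ) (I : Finset ι) (l : ι → Ln2) : Prop := by
  classical exact
  ∀ (a b w1 w2 : ℝ) (x0 y0 : Fin 2 → ℝ), a ^ 2 + b ^ 2 = 1 → 1 ≤ w1 → w1 ≤ w2 →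
    ((I.filter (fun i => Vale.Agent.P117.K.inP a b w1 w2 x0 y0 (l i))).card : ℝ) ≤ Λ * (w1 * w2)

/-- the multiplicity of a line is at most `Λ` -/
lemma WKT.mult_le {ι : Type} {Λ : ℝ} {I : Finset ι} {l : ι → Ln2} (h : WKT Λ I l) (p : Ln2) :
    ((I.filter (fun i => l i = p)).card : ℝ) ≤ Λ := by
  classical
  have h1 := h 1 0 1 1 (fun c => (p.1 c : ℝ)) (fun c => (p.2 c : ℝ)) (by norm_num) le_rfl le_rfl
  rw [mul_one, mul_one] at h1
  refine le_trans ?_ h1
  have hsub : I.filter (fun i => l i = p) ⊆ I.filter (fun i => Vale.Agent.P117.K.inP 1 0 1 1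
      (fun c => (p.1 c : ℝ)) (fun c => (p.2 c : ℝ)) (l i)) := by
    intro i hi
    rw [mem_filter] at hi ⊢
    refine ⟨hi.1, ?_⟩
    unfold Vale.Agent.P117.K.inP
    rw [hi.2]
    simp
  have := card_le_card hsub
  convert (Nat.cast_le (α := ℝ)).2 this

/-- **the discrete maximal inequality for a Katz-Tao family of lines** -/
theorem kt_fam {ε : ℝ} (hε : 0 < ε) : ∃ C : ℝ, 0 < C ∧ ∀ (ι : Type) (L : ℕ) (I : Finset ι)
    (l : ι → Ln2) (Λ : ℝ), 1 ≤ Λ →
    (∀ i ∈ I, ∀ c, (0 ≤ (l i).1 c ∧ (l i).1 c < 2 ^ L) ∧ (0 ≤ (l i).2 c ∧ (l i).2 c < 2 ^ L)) →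
    WKT Λ I l → ∀ G : (Fin 2 → ℤ) × ℕ → ENNReal,
      ∑ i ∈ I, (∑ t ∈ range (2 ^ L), G (pos L (l i) t, t)) ^ (2 + 1) ≤
        ENNReal.ofReal (C * Λ ^ (1 + ε) * (2 : ℝ) ^ (ε * L) * 2 ^ (2 * L)) *
          ∑' z, G z ^ (2 + 1) := by
  classical
  obtain ⟨C, hC, H⟩ := kt_set hε
  obtain ⟨C1, hC1, H1⟩ := poly_le 1 hε
  refine ⟨2 * C1 * C, by positivity, ?_⟩
  intro ι L I l Λ hΛ hI hK G
  have hΛ0 : 0 < Λ := by linarith
  set F : Ln2 → ENNReal := fun p => (∑ t ∈ range (2 ^ L), G (pos L p t, t)) ^ (2 + 1) with hF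
  set mult : Ln2 → ℕ := fun p => (I.filter (fun i => l i = p)).card with hmult
  set S : ENNReal := ∑' z, G z ^ (2 + 1) with hS
  have hm : ∀ p, (mult p : ℝ) ≤ Λ := fun p => hK.mult_le p
  have e1 : ∑ i ∈ I, (∑ t ∈ range (2 ^ L), G (pos L (l i) t, t)) ^ (2 + 1) =
      ∑ p ∈ I.image l, mult p • F p := sum_comp F l
  set J : ℕ := Nat.log 2 ⌊Λ⌋₊ with hJ
  have hmem : ∀ p ∈ I.image l, Nat.log 2 (mult p) ∈ range (J + 1) := by
    intro p _
    rw [mem_range, Nat.lt_succ_iff]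
    exact Nat.log_mono_right (Nat.le_floor (hm p))
  have e2 : ∑ p ∈ I.image l, mult p • F p =
      ∑ j ∈ range (J + 1), ∑ p ∈ (I.image l).filter (fun p => Nat.log 2 (mult p) = j),
        mult p • F p := (sum_fiberwise_of_maps_to hmem _).symm
  rw [e1, e2]
  have h1 : ∀ j ∈ range (J + 1),
      ∑ p ∈ (I.image l).filter (fun p => Nat.log 2 (mult p) = j), mult p • F p ≤
        ENNReal.ofReal (2 * (C * Λ * (2 : ℝ) ^ (ε * L) * 2 ^ (2 * L))) * S := by
    intro j _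
    set T := (I.image l).filter (fun p => Nat.log 2 (mult p) = j) with hT
    have hpos : ∀ p ∈ I.image l, 0 < mult p := by
      intro p hp
      obtain ⟨i, hi, rfl⟩ := mem_image.1 hp
      exact card_pos.2 ⟨i, mem_filter.2 ⟨hi, rfl⟩⟩
    have hlow : ∀ p ∈ T, 2 ^ j ≤ mult p := by
      intro p hp
      rw [hT, mem_filter] at hp
      rw [← hp.2]
      exact Nat.pow_log_le_self 2 (hpos p hp.1).ne'
    have hupp : ∀ p ∈ T, mult p ≤ 2 ^ (j + 1) := by
      intro p hp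
      rw [hT, mem_filter] at hp
      rw [← hp.2]
      exact (Nat.lt_pow_succ_log_self (by norm_num) _).le
    rcases T.eq_empty_or_nonempty with h0 | ⟨p0, hp0⟩
    · rw [h0, sum_empty]
      exact zero_le
    have hjΛ : (2 : ℝ) ^ j ≤ Λ := by
      have : ((2 ^ j : ℕ) : ℝ) ≤ mult p0 := by exact_mod_cast hlow p0 hp0
      push_cast at this
      exact this.trans (hm p0)
    have h2j : (0 : ℝ) < 2 ^ j := by positivity
    have hKT : Vale.Agent.P117.K.KTf (Λ / 2 ^ j) T := by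
      intro a b w1 w2 x0 y0 hab hw1 hw2
      have hfull := hK a b w1 w2 x0 y0 hab hw1 hw2
      have h3 : ∑ p ∈ T.filter (fun p => Vale.Agent.P117.K.inP a b w1 w2 x0 y0 p), mult p =
          (I.filter (fun i => l i ∈ T.filter
            (fun p => Vale.Agent.P117.K.inP a b w1 w2 x0 y0 p))).card :=
        sum_card_fiberwise_eq_card_filter _ _ _
      have h4 : (I.filter (fun i => l i ∈ T.filter
            (fun p => Vale.Agent.P117.K.inP a b w1 w2 x0 y0 p))).card ≤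
          (I.filter (fun i => Vale.Agent.P117.K.inP a b w1 w2 x0 y0 (l i))).card := by
        refine card_le_card fun i hi => ?_
        rw [mem_filter] at hi ⊢
        exact ⟨hi.1, (mem_filter.1 hi.2).2⟩
      have h5 : 2 ^ j * (T.filter (fun p => Vale.Agent.P117.K.inP a b w1 w2 x0 y0 p)).card ≤
          ∑ p ∈ T.filter (fun p => Vale.Agent.P117.K.inP a b w1 w2 x0 y0 p), mult p := by
        rw [mul_comm, ← smul_eq_mul, ← sum_const]
        exact sum_le_sum fun p hp => hlow p (mem_filter.1 hp).1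
      have h6 : (2 : ℝ) ^ j *
          ((T.filter (fun p => Vale.Agent.P117.K.inP a b w1 w2 x0 y0 p)).card : ℝ) ≤
          Λ * (w1 * w2) := by
        refine le_trans ?_ hfull
        have := h5.trans (h3.le.trans h4)
        have h7 := (Nat.cast_le (α := ℝ)).2 this
        push_cast at h7
        convert h7
      have h8 : ((T.filter (fun p => Vale.Agent.P117.K.inP a b w1 w2 x0 y0 p)).card : ℝ) ≤
          Λ / 2 ^ j * (w1 * w2) := by
        rw [div_mul_eq_mul_div, le_div_iff₀ h2j]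
        linarith
      convert h8
    have hbox : ∀ p ∈ T, ∀ c, (0 ≤ p.1 c ∧ p.1 c < 2 ^ L) ∧ (0 ≤ p.2 c ∧ p.2 c < 2 ^ L) := by
      intro p hp
      rw [hT, mem_filter] at hp
      obtain ⟨i, hi, rfl⟩ := mem_image.1 hp.1
      exact hI i hi
    have h9 := H L T (Λ / 2 ^ j) (by rw [le_div_iff₀ h2j]; linarith) hbox hKT G
    calc ∑ p ∈ T, mult p • F p ≤ ∑ p ∈ T, (2 : ENNReal) ^ (j + 1) * F p := by
          refine sum_le_sum fun p hp => ?_
          rw [nsmul_eq_mul]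
          refine mul_le_mul_left ?_ _
          have := (Nat.cast_le (α := ENNReal)).2 (hupp p hp)
          push_cast at this
          exact this
      _ = (2 : ENNReal) ^ (j + 1) * ∑ p ∈ T, F p := (mul_sum _ _ _).symm
      _ ≤ (2 : ENNReal) ^ (j + 1) * (ENNReal.ofReal (C * (Λ / 2 ^ j) * (2 : ℝ) ^ (ε * L) *
            2 ^ (2 * L)) * S) := mul_le_mul_right h9 _
      _ = _ := by
          rw [← mul_assoc, show (2 : ENNReal) = ENNReal.ofReal 2 by norm_num,
            ← ENNReal.ofReal_pow (by norm_num), ← ENNReal.ofReal_mul (by positivity)]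
          congr 2
          rw [pow_succ]
          field_simp
  refine (sum_le_sum h1).trans ?_
  rw [sum_const, card_range, nsmul_eq_mul, ← mul_assoc]
  refine mul_le_mul_left ?_ _
  have hJ1 : ((J + 1 : ℕ) : ℝ) ≤ C1 * Λ ^ ε := by
    have h2 := H1 J
    rw [pow_one] at h2
    have h3 : (2 : ℝ) ^ (ε * J) ≤ Λ ^ ε := by
      have h4 : (2 : ℝ) ^ (ε * J) = ((2 : ℝ) ^ J) ^ ε := by
        rw [← Real.rpow_natCast, ← Real.rpow_mul (by norm_num)]
        congr 1
        ring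
      rw [h4]
      refine Real.rpow_le_rpow (by positivity) ?_ hε.le
      have h5 : ⌊Λ⌋₊ ≠ 0 := by
        have : 1 ≤ ⌊Λ⌋₊ := Nat.le_floor (by simpa using hΛ)
        omega
      have h6 : (2 : ℝ) ^ J ≤ ⌊Λ⌋₊ := by exact_mod_cast Nat.pow_log_le_self 2 h5
      exact h6.trans (Nat.floor_le hΛ0.le)
    push_cast
    calc (J : ℝ) + 1 ≤ (J : ℝ) + 2 := by linarith
      _ ≤ C1 * (2 : ℝ) ^ (ε * J) := h2
      _ ≤ C1 * Λ ^ ε := mul_le_mul_of_nonneg_left h3 hC1.le
  rw [← ENNReal.ofReal_natCast, ← ENNReal.ofReal_mul (by positivity)]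
  refine ENNReal.ofReal_le_ofReal ?_
  rw [Real.rpow_add hΛ0, Real.rpow_one]
  calc ((J + 1 : ℕ) : ℝ) * (2 * (C * Λ * (2 : ℝ) ^ (ε * L) * 2 ^ (2 * L)))
      ≤ (C1 * Λ ^ ε) * (2 * (C * Λ * (2 : ℝ) ^ (ε * L) * 2 ^ (2 * L))) :=
        mul_le_mul_of_nonneg_right hJ1 (by positivity)
    _ = _ := by ring

end Vale.Agent.P127.H864
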