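import Vale.Agent.P127.H864.Fam

/-!
# P127 / H864 : the tubes of a plank of lines lie in a convex set
-/

set_option autoImplicit false

namespace Vale.Agent.P127.H864

open MeasureTheory Finset Vale.Agent.P127.M3

/-- the relative position of the point `z` and of the central line of the plank, in units of `2^{-L}` -/
noncomputable def Uc (L : ℕ) (x0 y0 : Fin 2 → ℝ) (s κ : Fin 2 → ℤ) (h : ℤ)
    (z : EuclideanSpace ℝ (Fin (2 + 1))) (c : Fin 2) : ℝ :=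
  2 ^ L * z.ofLp (Fin.castSucc c) - 2 ^ L * (κ c + z.ofLp (Fin.last 2) * s c) - x0 c -
    (z.ofLp (Fin.last 2) - h) * y0 c

/-- the plank -/
def PW (L : ℕ) (a b w1 w2 : ℝ) (x0 y0 : Fin 2 → ℝ) (s κ : Fin 2 → ℤ) (h : ℤ) :
    Set (EuclideanSpace ℝ (Fin (2 + 1))) :=
  {z | |z.ofLp (Fin.last 2) - h| ≤ 5 ∧
    |a * Uc L x0 y0 s κ h z 0 + b * Uc L x0 y0 s κ h z 1| ≤ 42 * w1 ∧
    |-b * Uc L x0 y0 s κ h z 0 + a * Uc L x0 y0 s κ h z 1| ≤ 42 * w2}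

/-- the matrix of the plank -/
noncomputable def PM (L : ℕ) (a b : ℝ) (y0 : Fin 2 → ℝ) (s : Fin 2 → ℤ) : Matrix (Fin 3) (Fin 3) ℝ :=
  !![2 ^ L * a, 2 ^ L * b, -(a * (2 ^ L * s 0 + y0 0) + b * (2 ^ L * s 1 + y0 1));
    -(2 ^ L * b), 2 ^ L * a, b * (2 ^ L * s 0 + y0 0) - a * (2 ^ L * s 1 + y0 1);
    0, 0, 1]

lemma PM_det (L : ℕ) {a b : ℝ} (hab : a ^ 2 + b ^ 2 = 1) (y0 : Fin 2 → ℝ) (s : Fin 2 → ℤ) :
    (PM L a b y0 s).det = 2 ^ (2 * L) := by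
  rw [PM, Matrix.det_fin_three]
  simp only [Matrix.of_apply, Matrix.cons_val', Matrix.cons_val_zero, Matrix.cons_val_one,
    Matrix.cons_val, Matrix.empty_val', Matrix.cons_val_fin_one]
  have e : (2 : ℝ) ^ (2 * L) = 2 ^ L * 2 ^ L := by rw [← pow_add]; congr 1; ring
  rw [e]
  linear_combination (2 ^ L * 2 ^ L : ℝ) * hab

lemma PW_eq (L : ℕ) (a b w1 w2 : ℝ) (x0 y0 : Fin 2 → ℝ) (s κ : Fin 2 → ℤ) (h : ℤ) :
    PW L a b w1 w2 x0 y0 s κ h = (fun z : EuclideanSpace ℝ (Fin (2 + 1)) => z.ofLp) ⁻¹'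
      ((Matrix.toLin' (PM L a b y0 s)) ⁻¹' (Set.Icc
        ![a * (2 ^ L * κ 0 + x0 0 - h * y0 0) + b * (2 ^ L * κ 1 + x0 1 - h * y0 1) - 42 * w1,
          -b * (2 ^ L * κ 0 + x0 0 - h * y0 0) + a * (2 ^ L * κ 1 + x0 1 - h * y0 1) - 42 * w2,
          h - 5]
        ![a * (2 ^ L * κ 0 + x0 0 - h * y0 0) + b * (2 ^ L * κ 1 + x0 1 - h * y0 1) + 42 * w1,
          -b * (2 ^ L * κ 0 + x0 0 - h * y0 0) + a * (2 ^ L * κ 1 + x0 1 - h * y0 1) + 42 * w2,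
          h + 5])) := by
  ext z
  have hc0 : Fin.castSucc (0 : Fin 2) = (0 : Fin 3) := rfl
  have hc1 : Fin.castSucc (1 : Fin 2) = (1 : Fin 3) := rfl
  have hc2 : Fin.last 2 = (2 : Fin 3) := rfl
  simp only [PW, Uc, Set.mem_ofPred_eq, Set.mem_preimage, Set.mem_Icc, Pi.le_def, Fin.forall_fin_succ,
    Matrix.toLin'_apply, PM, Matrix.mulVec, dotProduct, Fin.sum_univ_three, Matrix.of_apply,
    Matrix.cons_val', Matrix.cons_val_zero, Matrix.cons_val_one, Matrix.cons_val,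
    Matrix.empty_val', Matrix.cons_val_fin_one, hc0, hc1, hc2, abs_le]
  constructor
  · rintro ⟨⟨h1, h2⟩, ⟨h3, h4⟩, h5, h6⟩
    refine ⟨⟨?_, ?_, ?_⟩, ?_, ?_, ?_⟩ <;> simp <;> linarith
  · rintro ⟨⟨h1, h2, h3⟩, h4, h5, h6⟩
    simp at h1 h2 h3 h4 h5 h6
    refine ⟨⟨?_, ?_⟩, ⟨?_, ?_⟩, ?_, ?_⟩ <;> linarith

/-- the volume of the plank -/
lemma volume_PW (L : ℕ) {a b : ℝ} (hab : a ^ 2 + b ^ 2 = 1) {w1 w2 : ℝ} (hw1 : 0 ≤ w1) (hw2 : 0 ≤ w2)
    (x0 y0 : Fin 2 → ℝ) (s κ : Fin 2 → ℤ) (h : ℤ) :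
    volume (PW L a b w1 w2 x0 y0 s κ h) ≤ ENNReal.ofReal (70560 * (w1 * w2) / 2 ^ (2 * L)) := by
  rw [PW_eq]
  set M := PM L a b y0 s with hM
  have hdet : M.det = 2 ^ (2 * L) := PM_det L hab y0 s
  have hdet' : LinearMap.det (Matrix.toLin' M) = 2 ^ (2 * L) := by
    rw [LinearMap.det_toLin', hdet]
  have hpos : (0 : ℝ) < 2 ^ (2 * L) := by positivity
  have hmeas : MeasurableSet ((Matrix.toLin' M) ⁻¹' (Set.Icc
        ![a * (2 ^ L * κ 0 + x0 0 - h * y0 0) + b * (2 ^ L * κ 1 + x0 1 - h * y0 1) - 42 * w1,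
          -b * (2 ^ L * κ 0 + x0 0 - h * y0 0) + a * (2 ^ L * κ 1 + x0 1 - h * y0 1) - 42 * w2,
          h - 5]
        ![a * (2 ^ L * κ 0 + x0 0 - h * y0 0) + b * (2 ^ L * κ 1 + x0 1 - h * y0 1) + 42 * w1,
          -b * (2 ^ L * κ 0 + x0 0 - h * y0 0) + a * (2 ^ L * κ 1 + x0 1 - h * y0 1) + 42 * w2,
          h + 5])) :=
    (LinearMap.continuous_of_finiteDimensional (Matrix.toLin' M)).measurable measurableSet_Icc
  rw [(PiLp.volume_preserving_ofLp (Fin (2 + 1))).measure_preimage hmeas.nullMeasurableSet,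
    Measure.addHaar_preimage_linearMap _ (by rw [hdet']; exact hpos.ne'), hdet',
    Real.volume_Icc_pi, Fin.prod_univ_three]
  simp only [Matrix.cons_val_zero, Matrix.cons_val_one, Matrix.cons_val]
  rw [← ENNReal.ofReal_mul (by linarith), ← ENNReal.ofReal_mul (by
    refine mul_nonneg ?_ ?_ <;> linarith), ← ENNReal.ofReal_mul (abs_nonneg _)]
  refine ENNReal.ofReal_le_ofReal (le_of_eq ?_)
  rw [abs_of_pos (by positivity)]
  field_simp
  ring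

/-- the plank is convex -/
lemma convex_PW (L : ℕ) (a b w1 w2 : ℝ) (x0 y0 : Fin 2 → ℝ) (s κ : Fin 2 → ℤ) (h : ℤ) :
    Convex ℝ (PW L a b w1 w2 x0 y0 s κ h) := by
  rw [PW_eq]
  have h1 : IsLinearMap ℝ (fun z : EuclideanSpace ℝ (Fin (2 + 1)) => z.ofLp) :=
    ⟨fun x y => rfl, fun c x => rfl⟩
  exact ((convex_Icc _ _).linear_preimage (Matrix.toLin' (PM L a b y0 s))).is_linear_preimage h1

/-- the tube of a line of the plank lies in the plank -/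
lemma tube_sub_PW {L : ℕ} {δ : ℝ} (hδ0 : 0 ≤ δ) (hδ1 : δ ≤ 1) (hδ : δ * 2 ^ L ≤ 2)
    {A : EuclideanSpace ℝ (Fin (2 + 1))} {v : Fin 2 → ℝ} (hv : ∀ i, |v i| ≤ 1) {h : ℤ}
    (hh : |A.ofLp (Fin.last 2) - h| ≤ 3) {x y s κ : Fin 2 → ℤ}
    (hX : ∀ c, |(2 : ℝ) ^ L * (A.ofLp (Fin.castSucc c) - A.ofLp (Fin.last 2) * v c + h * v c) -
      (x c + 2 ^ L * (κ c + h * s c))| ≤ 9)
    (hY : ∀ c, |(2 : ℝ) ^ L * v c - (2 ^ L * s c + y c)| ≤ 1)
    {a b w1 w2 : ℝ} (hab : a ^ 2 + b ^ 2 = 1) (hw1 : 1 ≤ w1) (hw2 : w1 ≤ w2) {x0 y0 : Fin 2 → ℝ}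
    (hl : Vale.Agent.P117.K.inP a b w1 w2 x0 y0 (x, y)) :
    tube δ A (dir v) ⊆ PW L a b w1 w2 x0 y0 s κ h := by
  intro z hz
  obtain ⟨h1, h2⟩ := tube_near hv hz
  have hpr : (0 : ℝ) < 2 ^ L := by positivity
  have ha : |a| ≤ 1 := by
    rw [abs_le]
    constructor <;> nlinarith [sq_nonneg b]
  have hb : |b| ≤ 1 := by
    rw [abs_le]
    constructor <;> nlinarith [sq_nonneg a]
  have hz5 : |z.ofLp (Fin.last 2) - h| ≤ 5 := by
    have e : z.ofLp (Fin.last 2) - h = (z.ofLp (Fin.last 2) - A.ofLp (Fin.last 2)) +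
      (A.ofLp (Fin.last 2) - h) := by ring
    rw [e]
    refine (abs_add_le _ _).trans ?_
    linarith
  set τ : ℝ := z.ofLp (Fin.last 2) - h with hτ
  -- the error
  have herr : ∀ c, |Uc L x0 y0 s κ h z c - ((x c - x0 c) + τ * (y c - y0 c))| ≤ 18 := by
    intro c
    have e : Uc L x0 y0 s κ h z c - ((x c - x0 c) + τ * (y c - y0 c)) =
        2 ^ L * (z.ofLp (Fin.castSucc c) - ((A.ofLp (Fin.castSucc c) -
          A.ofLp (Fin.last 2) * v c) + z.ofLp (Fin.last 2) * v c)) +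
        ((2 : ℝ) ^ L * (A.ofLp (Fin.castSucc c) - A.ofLp (Fin.last 2) * v c + h * v c) -
          (x c + 2 ^ L * (κ c + h * s c))) +
        τ * ((2 : ℝ) ^ L * v c - (2 ^ L * s c + y c)) := by
      rw [Uc, hτ]
      ring
    rw [e]
    refine (abs_add_le _ _).trans ?_
    have g1 := abs_add_le (2 ^ L * (z.ofLp (Fin.castSucc c) - ((A.ofLp (Fin.castSucc c) -
          A.ofLp (Fin.last 2) * v c) + z.ofLp (Fin.last 2) * v c)))
        ((2 : ℝ) ^ L * (A.ofLp (Fin.castSucc c) - A.ofLp (Fin.last 2) * v c + h * v c) -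
          (x c + 2 ^ L * (κ c + h * s c)))
    have g2 : |2 ^ L * (z.ofLp (Fin.castSucc c) - ((A.ofLp (Fin.castSucc c) -
          A.ofLp (Fin.last 2) * v c) + z.ofLp (Fin.last 2) * v c))| ≤ 4 := by
      rw [abs_mul, abs_of_pos hpr]
      have := mul_le_mul_of_nonneg_left (h2 c) hpr.le
      linarith
    have g3 : |τ * ((2 : ℝ) ^ L * v c - (2 ^ L * s c + y c))| ≤ 5 := by
      rw [abs_mul]
      have := mul_le_mul hz5 (hY c) (abs_nonneg _) (by norm_num)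
      linarith
    have g4 := hX c
    linarith
  obtain ⟨l1, l2, l3, l4⟩ := hl
  simp only at l1 l2 l3 l4
  have e0 := abs_le.1 (herr 0)
  have e1 := abs_le.1 (herr 1)
  have hw1' : 0 ≤ w1 := by linarith
  refine ⟨hz5, ?_, ?_⟩
  · have e : a * Uc L x0 y0 s κ h z 0 + b * Uc L x0 y0 s κ h z 1 =
        a * (Uc L x0 y0 s κ h z 0 - ((x 0 - x0 0) + τ * (y 0 - y0 0))) +
        b * (Uc L x0 y0 s κ h z 1 - ((x 1 - x0 1) + τ * (y 1 - y0 1))) +
        (a * (x 0 - x0 0) + b * (x 1 - x0 1)) + τ * (a * (y 0 - y0 0) + b * (y 1 - y0 1)) := by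
      ring
    rw [e]
    have g1 : |a * (Uc L x0 y0 s κ h z 0 - ((x 0 - x0 0) + τ * (y 0 - y0 0)))| ≤ 18 := by
      rw [abs_mul]
      have := mul_le_mul ha (herr 0) (abs_nonneg _) (by norm_num)
      linarith
    have g2 : |b * (Uc L x0 y0 s κ h z 1 - ((x 1 - x0 1) + τ * (y 1 - y0 1)))| ≤ 18 := by
      rw [abs_mul]
      have := mul_le_mul hb (herr 1) (abs_nonneg _) (by norm_num)
      linarith
    have g3 : |τ * (a * (y 0 - y0 0) + b * (y 1 - y0 1))| ≤ 5 * w1 := by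
      rw [abs_mul]
      exact mul_le_mul hz5 l3 (abs_nonneg _) (by norm_num)
    refine (abs_add_le _ _).trans ?_
    refine le_trans (add_le_add (abs_add_le _ _) le_rfl) ?_
    refine le_trans (add_le_add (add_le_add (abs_add_le _ _) le_rfl) le_rfl) ?_
    linarith
  · have e : -b * Uc L x0 y0 s κ h z 0 + a * Uc L x0 y0 s κ h z 1 =
        -b * (Uc L x0 y0 s κ h z 0 - ((x 0 - x0 0) + τ * (y 0 - y0 0))) +
        a * (Uc L x0 y0 s κ h z 1 - ((x 1 - x0 1) + τ * (y 1 - y0 1))) +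
        (-b * (x 0 - x0 0) + a * (x 1 - x0 1)) + τ * (-b * (y 0 - y0 0) + a * (y 1 - y0 1)) := by
      ring
    rw [e]
    have g1 : |-b * (Uc L x0 y0 s κ h z 0 - ((x 0 - x0 0) + τ * (y 0 - y0 0)))| ≤ 18 := by
      rw [abs_mul, abs_neg]
      have := mul_le_mul hb (herr 0) (abs_nonneg _) (by norm_num)
      linarith
    have g2 : |a * (Uc L x0 y0 s κ h z 1 - ((x 1 - x0 1) + τ * (y 1 - y0 1)))| ≤ 18 := by
      rw [abs_mul]
      have := mul_le_mul ha (herr 1) (abs_nonneg _) (by norm_num)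
      linarith
    have g3 : |τ * (-b * (y 0 - y0 0) + a * (y 1 - y0 1))| ≤ 5 * w2 := by
      rw [abs_mul]
      exact mul_le_mul hz5 l4 (abs_nonneg _) (by norm_num)
    refine (abs_add_le _ _).trans ?_
    refine le_trans (add_le_add (abs_add_le _ _) le_rfl) ?_
    refine le_trans (add_le_add (add_le_add (abs_add_le _ _) le_rfl) le_rfl) ?_
    linarith

end Vale.Agent.P127.H864
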