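import Vale.Agent.P127.H864.Slope

/-!
# P127 / H864 : the maximal inequality for families of tubes with the Katz-Tao convex Wolff condition
-/

set_option autoImplicit false

namespace Vale.Agent.P127.H864

open MeasureTheory Finset Vale.Agent.P127.M3

/-- a tube and its image under an isometry -/
lemma tube_preimage (U : E3 ≃ₗᵢ[ℝ] E3) (δ : ℝ) (a e : E3) :
    tube δ a e = U.toHomeomorph.toMeasurableEquiv ⁻¹' tube δ (U a) (U e) := by
  ext x
  exact (mem_tube_map U δ a e x).symm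

lemma volume_tube_map (U : E3 ≃ₗᵢ[ℝ] E3) (δ : ℝ) (a e : E3) :
    volume (tube δ a e) = volume (tube δ (U a) (U e)) := by
  have hmp : MeasurePreserving U.toHomeomorph.toMeasurableEquiv volume volume :=
    U.measurePreserving
  rw [tube_preimage U]
  exact hmp.measure_preimage_equiv _

lemma lintegral_tube_map (U : E3 ≃ₗᵢ[ℝ] E3) (δ : ℝ) (a e : E3) (f : E3 → ENNReal) :
    ∫⁻ x in tube δ a e, f x = ∫⁻ x in tube δ (U a) (U e), f (U.symm x) := by
  have hmp : MeasurePreserving U.toHomeomorph.toMeasurableEquiv volume volume :=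
    U.measurePreserving
  have h4 := hmp.setLIntegral_comp_preimage_emb (MeasurableEquiv.measurableEmbedding _)
    (fun x => f (U.symm x)) (tube δ (U a) (U e))
  rw [← h4, ← tube_preimage U]
  refine lintegral_congr fun x => ?_
  congr 1
  exact (U.symm_apply_apply x).symm

/-- subfamilies and isometric images satisfy the condition -/
lemma KTW.map {ι : Type} {Λ δ : ℝ} {I J : Finset ι} {A e : ι → E3} (h : KTW Λ δ I A e)
    (U : E3 ≃ₗᵢ[ℝ] E3) (hJ : J ⊆ I) {e' : ι → E3} (he' : ∀ i ∈ J, e' i = U (e i)) :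
    KTW Λ δ J (fun i => U (A i)) e' := by
  classical
  intro W hW
  have hmp : MeasurePreserving U.toHomeomorph.toMeasurableEquiv volume volume :=
    U.measurePreserving
  have hW' : Convex ℝ (U ⁻¹' W) := hW.is_linear_preimage ⟨U.map_add, U.map_smul⟩
  have h1 : ∑ i ∈ I.filter (fun i => tube δ (A i) (e i) ⊆ U ⁻¹' W), volume (tube δ (A i) (e i)) ≤
      ENNReal.ofReal Λ * volume (U ⁻¹' W) := by
    have := h (U ⁻¹' W) hW'
    convert this
  have h2 : volume (U ⁻¹' W) = volume W := hmp.measure_preimage_equiv W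
  rw [h2] at h1
  have h3 : ∑ i ∈ J.filter (fun i => tube δ (U (A i)) (e' i) ⊆ W), volume (tube δ (U (A i)) (e' i)) ≤
      ENNReal.ofReal Λ * volume W := by
    refine le_trans ?_ h1
    have hsub : J.filter (fun i => tube δ (U (A i)) (e' i) ⊆ W) ⊆
        I.filter (fun i => tube δ (A i) (e i) ⊆ U ⁻¹' W) := by
      intro i hi
      rw [mem_filter] at hi ⊢
      refine ⟨hJ hi.1, fun x hx => ?_⟩
      have h5 := hi.2
      rw [he' i hi.1] at h5
      exact h5 ((mem_tube_map U δ (A i) (e i) x).2 hx)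
    refine le_trans (le_of_eq ?_) (sum_le_sum_of_subset hsub)
    refine sum_congr rfl fun i hi => ?_
    rw [he' i (mem_filter.1 hi).1, ← volume_tube_map]
  convert h3

/-- **the maximal inequality for families of tubes** -/
theorem main_ineq {ε : ℝ} (hε : 0 < ε) : ∃ C : ℝ, 0 < C ∧ ∀ (ι : Type) (I : Finset ι)
    (A e : ι → E3) (δ Λ : ℝ), 0 < δ → δ < 1 → 1 ≤ Λ → (∀ i ∈ I, ‖e i‖ = 1) →
    KTW Λ δ I A e → ∀ f : E3 → ENNReal, Measurable f →
    ∑ i ∈ I, (∫⁻ x in tube δ (A i) (e i), f x) ^ (2 + 1) ≤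
      ENNReal.ofReal (C * Λ ^ (1 + ε) * δ ^ (-ε) * δ ^ 4) * ∫⁻ x, f x ^ (2 + 1) := by
  classical
  obtain ⟨C, hC, H⟩ := slope_fam hε
  refine ⟨6 * C, by positivity, ?_⟩
  intro ι I A e δ Λ hδ0 hδ1 hΛ he hK f hf
  have hex : ∀ i ∈ I, ∃ p : Fin 3 × Bool, 0 < (swapIso (m := 2) p.1 p.2 (e i)).ofLp (Fin.last 2) ∧
      ∀ j, |(swapIso (m := 2) p.1 p.2 (e i)).ofLp j| ≤
        (swapIso (m := 2) p.1 p.2 (e i)).ofLp (Fin.last 2) := by
    intro i hi
    have hne : e i ≠ 0 := by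
      intro h0
      have := he i hi
      rw [h0, norm_zero] at this
      exact zero_ne_one this
    obtain ⟨c, b, h1, h2⟩ := exists_swapIso (m := 2) hne
    exact ⟨(c, b), h1, h2⟩
  choose! p hp using hex
  rw [← sum_fiberwise_of_maps_to (s := I) (t := (univ : Finset (Fin 3 × Bool))) (g := p)
      (fun i hi => mem_univ _)]
  have h1 : ∀ r ∈ (univ : Finset (Fin 3 × Bool)), ∑ i ∈ I.filter (fun i => p i = r),
      (∫⁻ x in tube δ (A i) (e i), f x) ^ (2 + 1) ≤
      ENNReal.ofReal (C * Λ ^ (1 + ε) * δ ^ (-ε) * δ ^ 4) * ∫⁻ x, f x ^ (2 + 1) := by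
    intro r _
    set U : E3 ≃ₗᵢ[ℝ] E3 := swapIso (m := 2) r.1 r.2 with hU
    set J := I.filter (fun i => p i = r) with hJ
    have hp' : ∀ i ∈ J, 0 < (U (e i)).ofLp (Fin.last 2) ∧
        ∀ j, |(U (e i)).ofLp j| ≤ (U (e i)).ofLp (Fin.last 2) := by
      intro i hi
      rw [hJ, mem_filter] at hi
      have := hp i hi.1
      rw [hi.2] at this
      exact this
    have hd : ∀ i ∈ J, dir (slope (U (e i))) = U (e i) := by
      intro i hi
      refine dir_slope ?_ (hp' i hi).1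
      rw [LinearIsometryEquiv.norm_map, he i (mem_filter.1 hi).1]
    have hv : ∀ i ∈ J, ∀ c, |slope (U (e i)) c| ≤ 1 := by
      intro i hi c
      rw [slope, abs_div, abs_of_pos (hp' i hi).1]
      exact div_le_one_of_le₀ ((hp' i hi).2 _) (hp' i hi).1.le
    have hK' : KTW Λ δ J (fun i => U (A i)) (fun i => dir (slope (U (e i)))) :=
      hK.map U (filter_subset _ _) hd
    have h2 := H ι J (fun i => U (A i)) (fun i => slope (U (e i))) δ Λ hδ0 hδ1 hΛ hv hK'
      (fun x => f (U.symm x)) (hf.comp U.symm.continuous.measurable)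
    have h3 : ∫⁻ x, f (U.symm x) ^ (2 + 1) = ∫⁻ x, f x ^ (2 + 1) :=
      U.symm.measurePreserving.lintegral_comp (f := fun x => f x ^ (2 + 1)) (hf.pow_const _)
    rw [h3] at h2
    refine le_trans (le_of_eq ?_) h2
    refine sum_congr rfl fun i hi => ?_
    rw [hd i hi, ← lintegral_tube_map]
  refine (sum_le_sum h1).trans (le_of_eq ?_)
  rw [sum_const, card_univ, Fintype.card_prod, Fintype.card_fin, Fintype.card_bool, nsmul_eq_mul,
    ← mul_assoc]
  have e6 : (((3 * 2 : ℕ)) : ENNReal) = ENNReal.ofReal 6 := by norm_num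
  rw [e6, ← ENNReal.ofReal_mul (by norm_num)]
  congr 2
  ring

/-- the tube -/
lemma tube_eq {δ : ℝ} {a e : E3} (he : ‖e‖ = 1) : tube δ a e =
    {x | |inner ℝ (x - a) e| ≤ 1 / 2 ∧ ‖(x - a) - (inner ℝ (x - a) e) • e‖ ≤ δ} := by
  ext x
  constructor
  · rintro ⟨t, u, ht, hu, hn, rfl⟩
    have e1 : a + t • e + u - a = t • e + u := by abel
    have e2 : inner ℝ (t • e + u) e = t := by
      rw [inner_add_left, hu, add_zero, real_inner_smul_left, real_inner_self_eq_norm_sq, he]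
      norm_num
    refine ⟨?_, ?_⟩
    · rw [e1, e2]
      exact ht
    · rw [e1, e2, add_sub_cancel_left]
      exact hn
  · rintro ⟨h1, h2⟩
    refine ⟨inner ℝ (x - a) e, (x - a) - (inner ℝ (x - a) e) • e, h1, ?_, h2, ?_⟩
    · rw [inner_sub_left, real_inner_smul_left, real_inner_self_eq_norm_sq, he]
      ring
    · abel

lemma isClosed_tube {δ : ℝ} {a e : E3} (he : ‖e‖ = 1) : IsClosed (tube δ a e) := by
  rw [tube_eq he]
  have hc : Continuous fun x : E3 => inner ℝ (x - a) e :=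
    (continuous_id.sub continuous_const).inner continuous_const
  exact (isClosed_le hc.abs continuous_const).inter
    (isClosed_le ((continuous_id.sub continuous_const).sub (hc.smul continuous_const)).norm
      continuous_const)

lemma volume_tube_lt_top {δ : ℝ} {a e : E3} (he : ‖e‖ = 1) : volume (tube δ a e) < ⊤ := by
  have hsub : tube δ a e ⊆ Metric.closedBall a (1 / 2 + δ) := by
    rintro x ⟨t, u, ht, hu, hn, rfl⟩
    rw [mem_closedBall_iff_norm]
    have e1 : a + t • e + u - a = t • e + u := by abel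
    rw [e1]
    refine (norm_add_le _ _).trans ?_
    rw [norm_smul, he, mul_one, Real.norm_eq_abs]
    linarith
  exact (measure_mono hsub).trans_lt measure_closedBall_lt_top

/-- **the inequality for the averages** -/
theorem avg_ineq {ε : ℝ} (hε : 0 < ε) : ∃ C : ℝ, 0 < C ∧ ∀ (ι : Type) (I : Finset ι)
    (A e : ι → E3) (δ Λ : ℝ), 0 < δ → δ < 1 → 1 ≤ Λ → (∀ i ∈ I, ‖e i‖ = 1) →
    KTW Λ δ I A e → ∀ f : E3 → ENNReal, Measurable f →
    ∑ i ∈ I, volume (tube δ (A i) (e i)) *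
      ((∫⁻ x in tube δ (A i) (e i), f x) / volume (tube δ (A i) (e i))) ^ 3 ≤
      ENNReal.ofReal (C * δ ^ (-ε) * Λ ^ (1 + ε)) * ∫⁻ x, f x ^ 3 := by
  obtain ⟨C, hC, H⟩ := main_ineq hε
  refine ⟨(9 / 4) ^ 2 * C, by positivity, ?_⟩
  intro ι I A e δ Λ hδ0 hδ1 hΛ he hK f hf
  have hΛ0 : 0 < Λ := by linarith
  have h1 : ∀ i ∈ I, volume (tube δ (A i) (e i)) *
      ((∫⁻ x in tube δ (A i) (e i), f x) / volume (tube δ (A i) (e i))) ^ 3 ≤
      ENNReal.ofReal ((9 / 4) ^ 2 / δ ^ 4) * (∫⁻ x in tube δ (A i) (e i), f x) ^ (2 + 1) := by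
    intro i hi
    set V := volume (tube δ (A i) (e i)) with hV
    set a := ∫⁻ x in tube δ (A i) (e i), f x with ha
    have g1 : ENNReal.ofReal ((2 / (2 + 1)) ^ 2 * δ ^ 2) ≤ V := by
      have := volume_tube_ge (m := 2) hδ0 (A i) (e i) (he i hi)
      push_cast at this
      exact this
    have g2 : V ≠ ⊤ := (volume_tube_lt_top (he i hi)).ne
    have g3 : V ≠ 0 := by
      refine ne_of_gt (lt_of_lt_of_le ?_ g1)
      rw [ENNReal.ofReal_pos]
      positivity
    have g4 : V⁻¹ ≤ ENNReal.ofReal (9 / 4 / δ ^ 2) := by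
      have : (ENNReal.ofReal (9 / 4 / δ ^ 2)) = (ENNReal.ofReal ((2 / (2 + 1)) ^ 2 * δ ^ 2))⁻¹ := by
        rw [← ENNReal.ofReal_inv_of_pos (by positivity)]
        congr 1
        field_simp
        norm_num
      rw [this]
      exact ENNReal.inv_le_inv.2 g1
    calc V * (a / V) ^ 3 = (V * V⁻¹) * (V⁻¹ ^ 2 * a ^ 3) := by
          rw [div_eq_mul_inv, mul_pow]
          ring
      _ = V⁻¹ ^ 2 * a ^ 3 := by rw [ENNReal.mul_inv_cancel g3 g2, one_mul]
      _ ≤ ENNReal.ofReal (9 / 4 / δ ^ 2) ^ 2 * a ^ 3 :=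
          mul_le_mul_left (pow_le_pow_left' g4 2) _
      _ = _ := by
          rw [← ENNReal.ofReal_pow (by positivity)]
          congr 2
          rw [div_pow, ← pow_mul]
  refine (sum_le_sum h1).trans ?_
  rw [← mul_sum]
  refine (mul_le_mul_right (H ι I A e δ Λ hδ0 hδ1 hΛ he hK f hf) _).trans (le_of_eq ?_)
  rw [← mul_assoc, ← ENNReal.ofReal_mul (by positivity)]
  congr 2
  field_simp

/-- **the dual inequality** -/
theorem dual_ineq {ε : ℝ} (hε : 0 < ε) : ∃ C : ℝ, 0 < C ∧ ∀ (ι : Type) (I : Finset ι)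
    (A e : ι → E3) (δ Λ : ℝ), 0 < δ → δ < 1 → 1 ≤ Λ → (∀ i ∈ I, ‖e i‖ = 1) →
    KTW Λ δ I A e →
    ∫⁻ x, (∑ i ∈ I, (tube δ (A i) (e i)).indicator (fun _ => (1 : ENNReal)) x) ^ (3 / 2 : ℝ) ≤
      ENNReal.ofReal (C * δ ^ (-ε) * Λ ^ (1 / 2 + ε)) * ∑ i ∈ I, volume (tube δ (A i) (e i)) := by
  classical
  obtain ⟨C, hC, H⟩ := main_ineq (ε := 2 * ε) (by linarith)
  refine ⟨9 / 4 * C ^ (1 / 2 : ℝ), by positivity, ?_⟩
  intro ι I A e δ Λ hδ0 hδ1 hΛ he hK
  have hΛ0 : 0 < Λ := by linarith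
  set g : E3 → ENNReal := fun x => ∑ i ∈ I, (tube δ (A i) (e i)).indicator (fun _ => (1 : ENNReal)) x
    with hg
  have hTm : ∀ i ∈ I, MeasurableSet (tube δ (A i) (e i)) := fun i hi =>
    (isClosed_tube (he i hi)).measurableSet
  have hgm : Measurable g := Finset.measurable_sum _ fun i hi =>
    measurable_const.indicator (hTm i hi)
  set f : E3 → ENNReal := fun x => g x ^ (1 / 2 : ℝ) with hf
  have hfm : Measurable f := hgm.pow_const _
  set S : ENNReal := ∫⁻ x, g x ^ (3 / 2 : ℝ) with hS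
  have hf3 : ∫⁻ x, f x ^ (2 + 1) = S := by
    refine lintegral_congr fun x => ?_
    rw [hf, ← ENNReal.rpow_natCast, ← ENNReal.rpow_mul]
    norm_num
  have hSs : S = ∑ i ∈ I, ∫⁻ x in tube δ (A i) (e i), f x := by
    have h1 : ∀ x, g x ^ (3 / 2 : ℝ) =
        ∑ i ∈ I, (tube δ (A i) (e i)).indicator (fun x => f x) x := by
      intro x
      have e1 : g x ^ (3 / 2 : ℝ) = g x * f x := by
        rw [hf]
        simp only
        rw [show (3 / 2 : ℝ) = 1 + 1 / 2 by norm_num, ENNReal.rpow_add_of_nonneg _ _ (by norm_num)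
          (by norm_num), ENNReal.rpow_one]
      rw [e1]
      change (∑ i ∈ I, (tube δ (A i) (e i)).indicator (fun _ => (1 : ENNReal)) x) * f x = _
      rw [sum_mul]
      refine sum_congr rfl fun i _ => ?_
      by_cases hx : x ∈ tube δ (A i) (e i)
      · rw [Set.indicator_of_mem hx, Set.indicator_of_mem hx, one_mul]
      · rw [Set.indicator_of_notMem hx, Set.indicator_of_notMem hx, zero_mul]
    rw [hS]
    simp_rw [h1]
    rw [lintegral_finsetSum _ fun i hi => hfm.indicator (hTm i hi)]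
    exact sum_congr rfl fun i hi => lintegral_indicator (hTm i hi) _
  have hV : ∫⁻ x, g x = ∑ i ∈ I, volume (tube δ (A i) (e i)) := by
    rw [hg, lintegral_finsetSum _ fun i hi => measurable_const.indicator (hTm i hi)]
    refine sum_congr rfl fun i hi => ?_
    rw [lintegral_indicator (hTm i hi)]
    simp
  have hVtop : ∑ i ∈ I, volume (tube δ (A i) (e i)) ≠ ⊤ :=
    (ENNReal.sum_lt_top.2 fun i hi => volume_tube_lt_top (he i hi)).ne
  have hStop : S ≠ ⊤ := by
    have h1 : ∀ x, g x ^ (3 / 2 : ℝ) ≤ (#I : ENNReal) ^ (1 / 2 : ℝ) * g x := by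
      intro x
      rw [show (3 / 2 : ℝ) = 1 / 2 + 1 by norm_num, ENNReal.rpow_add_of_nonneg _ _ (by norm_num)
          (by norm_num), ENNReal.rpow_one]
      refine mul_le_mul_left (ENNReal.rpow_le_rpow ?_ (by norm_num)) _
      refine (sum_le_sum (g := fun _ => (1 : ENNReal)) fun i _ =>
        Set.indicator_le_self' (fun _ _ => zero_le) x).trans (le_of_eq ?_)
      rw [sum_const, nsmul_eq_mul, mul_one]
    have h2 : S ≤ (#I : ENNReal) ^ (1 / 2 : ℝ) * ∑ i ∈ I, volume (tube δ (A i) (e i)) := by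
      rw [← hV, ← lintegral_const_mul _ hgm]
      exact lintegral_mono h1
    refine ne_top_of_le_ne_top (ENNReal.mul_ne_top ?_ hVtop) h2
    exact (ENNReal.rpow_lt_top_of_nonneg (by norm_num) (ENNReal.natCast_ne_top _)).ne
  have hmain := H ι I A e δ Λ hδ0 hδ1 hΛ he hK f hfm
  rw [hf3] at hmain
  have hpow : S ^ (3 : ℝ) ≤ (#I : ENNReal) ^ (3 - 1 : ℝ) *
      ∑ i ∈ I, (∫⁻ x in tube δ (A i) (e i), f x) ^ (3 : ℝ) := by
    rw [hSs]
    exact ENNReal.rpow_sum_le_const_mul_sum_rpow _ _ (by norm_num)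
  set K : ℝ := C * Λ ^ (1 + 2 * ε) * δ ^ (-(2 * ε)) * δ ^ 4 with hKd
  have hK0 : 0 < K := by positivity
  have hpow2 : S ^ 3 ≤ (#I : ENNReal) ^ 2 * (ENNReal.ofReal K * S) := by
    have e1 : S ^ (3 : ℝ) = S ^ 3 := by
      rw [← ENNReal.rpow_natCast]
      norm_num
    have e2 : (#I : ENNReal) ^ (3 - 1 : ℝ) = (#I : ENNReal) ^ 2 := by
      rw [← ENNReal.rpow_natCast]
      norm_num
    have e3 : ∑ i ∈ I, (∫⁻ x in tube δ (A i) (e i), f x) ^ (3 : ℝ) =
        ∑ i ∈ I, (∫⁻ x in tube δ (A i) (e i), f x) ^ (2 + 1) := by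
      refine sum_congr rfl fun i _ => ?_
      rw [← ENNReal.rpow_natCast]
      norm_num
    rw [e1, e2, e3] at hpow
    exact hpow.trans (mul_le_mul_right hmain _)
  -- real numbers
  clear hpow hmain hSs hf3 hS
  clear_value S K
  obtain ⟨s, hs0, rfl⟩ : ∃ s : ℝ, 0 ≤ s ∧ S = ENNReal.ofReal s :=
    ⟨S.toReal, ENNReal.toReal_nonneg, (ENNReal.ofReal_toReal hStop).symm⟩
  have h5 : s ^ 3 ≤ (#I : ℝ) ^ 2 * (K * s) := by
    rw [← ENNReal.ofReal_pow hs0, ← ENNReal.ofReal_natCast,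
      ← ENNReal.ofReal_pow (Nat.cast_nonneg _), ← ENNReal.ofReal_mul hK0.le,
      ← ENNReal.ofReal_mul (by positivity)] at hpow2
    exact (ENNReal.ofReal_le_ofReal_iff (by positivity)).1 hpow2
  have h6 : s ≤ #I * K ^ (1 / 2 : ℝ) := by
    rcases hs0.eq_or_lt with h0 | h0
    · rw [← h0]
      positivity
    · have h7 : s ^ 2 ≤ (#I * K ^ (1 / 2 : ℝ)) ^ 2 := by
        rw [mul_pow, ← Real.rpow_natCast (K ^ (1 / 2 : ℝ)), ← Real.rpow_mul hK0.le]
        norm_num
        have : s * s ^ 2 ≤ s * ((#I : ℝ) ^ 2 * K) := by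
          calc s * s ^ 2 = s ^ 3 := by ring
            _ ≤ (#I : ℝ) ^ 2 * (K * s) := h5
            _ = _ := by ring
        exact le_of_mul_le_mul_left this h0
      exact le_of_sq_le_sq h7 (by positivity)
  have h8 : ENNReal.ofReal ((#I : ℝ) * ((2 / (2 + 1)) ^ 2 * δ ^ 2)) ≤
      ∑ i ∈ I, volume (tube δ (A i) (e i)) := by
    calc ENNReal.ofReal ((#I : ℝ) * ((2 / (2 + 1)) ^ 2 * δ ^ 2))
        = ∑ i ∈ I, ENNReal.ofReal ((2 / (2 + 1)) ^ 2 * δ ^ 2) := by
          rw [sum_const, nsmul_eq_mul, ENNReal.ofReal_mul (by positivity), ENNReal.ofReal_natCast]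
      _ ≤ _ := by
          refine sum_le_sum fun i hi => ?_
          have := volume_tube_ge (m := 2) hδ0 (A i) (e i) (he i hi)
          push_cast at this
          exact this
  calc ENNReal.ofReal s ≤ ENNReal.ofReal (#I * K ^ (1 / 2 : ℝ)) := ENNReal.ofReal_le_ofReal h6
    _ = ENNReal.ofReal (9 / 4 * C ^ (1 / 2 : ℝ) * δ ^ (-ε) * Λ ^ (1 / 2 + ε)) *
          ENNReal.ofReal ((#I : ℝ) * ((2 / (2 + 1)) ^ 2 * δ ^ 2)) := by
        rw [← ENNReal.ofReal_mul (by positivity)]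
        congr 1
        have e1 : K ^ (1 / 2 : ℝ) = C ^ (1 / 2 : ℝ) * Λ ^ (1 / 2 + ε) * δ ^ (-ε) * δ ^ 2 := by
          rw [hKd, Real.mul_rpow (by positivity) (by positivity),
            Real.mul_rpow (by positivity) (by positivity),
            Real.mul_rpow (by positivity) (by positivity), ← Real.rpow_mul hΛ0.le,
            ← Real.rpow_mul hδ0.le, ← Real.rpow_natCast δ 4, ← Real.rpow_mul hδ0.le,
            ← Real.rpow_natCast δ 2]
          congr 1
          · congr 1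
            · congr 1
              congr 1
              ring
            · congr 1
              ring
          · congr 1
            norm_num
        rw [e1]
        ring
    _ ≤ _ := mul_le_mul_right h8 _

end Vale.Agent.P127.H864
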