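import Vale.Agent.P127.H864.Geo

/-!
# P127 / H864 : the maximal inequality for Katz-Tao families of tubes with slopes at most one
-/

set_option autoImplicit false

namespace Vale.Agent.P127.H864

open MeasureTheory Finset Vale.Agent.P127.M3

/-- `E3` -/
abbrev E3 := EuclideanSpace ℝ (Fin (2 + 1))

/-- the keys of the groups : integer part of the slope, box, height -/
abbrev Key := (Fin 2 → ℤ) × ((Fin 2 → ℤ) × ℤ)

section data

variable {ι : Type} (L : ℕ) (A : ι → E3) (v : ι → Fin 2 → ℝ) (q : ℤ × (Fin 2 → ℤ))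

/-- height -/
noncomputable def hq (i : ι) : ℤ := ⌊(A i).ofLp (Fin.last 2)⌋ + q.1

/-- base point -/
noncomputable def Xq (i : ι) (c : Fin 2) : ℤ := xbase L (A i) (v i) (hq A q i) c + q.2 c

/-- slope -/
noncomputable def Yq (i : ι) : Fin 2 → ℤ := fun c => ⌊(2 : ℝ) ^ L * v i c⌋

/-- box -/
noncomputable def kq (i : ι) (c : Fin 2) : ℤ :=
  Xq L A v q i c / 2 ^ L - hq A q i * sdig L (Yq L v i) c

/-- the line -/
noncomputable def lq (i : ι) : Ln2 := (fun c => Xq L A v q i c % 2 ^ L, ydig L (Yq L v i))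

/-- the key -/
noncomputable def key (i : ι) : Key := (sdig L (Yq L v i), kq L A v q i, hq A q i)

lemma X_eq (i : ι) (c : Fin 2) : Xq L A v q i c =
    (lq L A v q i).1 c + 2 ^ L * (kq L A v q i c + hq A q i * sdig L (Yq L v i) c) := by
  have h := Int.emod_add_mul_ediv (Xq L A v q i c) (2 ^ L)
  unfold lq kq
  simp only
  linarith

lemma Y_eq (i : ι) (c : Fin 2) : Yq L v i c =
    2 ^ L * sdig L (Yq L v i) c + ydig L (Yq L v i) c := by
  have h := Int.emod_add_mul_ediv (Yq L v i c) (2 ^ L)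
  unfold sdig ydig
  linarith

lemma lq_box (i : ι) (c : Fin 2) : (0 ≤ (lq L A v q i).1 c ∧ (lq L A v q i).1 c < 2 ^ L) ∧
    (0 ≤ (lq L A v q i).2 c ∧ (lq L A v q i).2 c < 2 ^ L) := by
  have hp : (0 : ℤ) < 2 ^ L := by positivity
  exact ⟨⟨Int.emod_nonneg _ hp.ne', Int.emod_lt_of_pos _ hp⟩,
    ⟨Int.emod_nonneg _ hp.ne', Int.emod_lt_of_pos _ hp⟩⟩

/-- the cell of the tube in terms of the line -/
lemma ccell_eq (i : ι) (t : ℕ) (F : (Fin 2 → ℤ) × ℤ → ENNReal) :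
    F (ccell L (A i) (v i) (q, t)) =
      shear (key L A v q i).1 F (glue L (key L A v q i).2 (pos L (lq L A v q i) t, t)) := by
  have hX := X_eq L A v q i
  unfold shear glue ccell key
  simp only
  congr 1
  refine Prod.ext (funext fun c => ?_) rfl
  have h1 := hX c
  have e1 : Xq L A v q i c = xbase L (A i) (v i) (hq A q i) c + q.2 c := rfl
  rw [e1] at h1
  have e2 : (fun c => ⌊(2 : ℝ) ^ L * v i c⌋) = Yq L v i := rfl
  have e3 : (lq L A v q i).2 = ydig L (Yq L v i) := rfl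
  have e4 : ⌊(A i).ofLp (Fin.last 2)⌋ + q.1 = hq A q i := rfl
  simp only [pos, e2, e3, e4]
  linarith

end data

/-- the function of the group `k` -/
noncomputable def Gk (L : ℕ) (F : (Fin 2 → ℤ) × ℤ → ENNReal) (k : Key) (z : (Fin 2 → ℤ) × ℕ) : ENNReal :=
  if (∀ c, 0 ≤ z.1 c ∧ z.1 c < 2 * 2 ^ L) ∧ z.2 < 2 ^ L then shear k.1 F (glue L k.2 z) else 0

/-- the positions of a line of the box -/
lemma pos_box {L : ℕ} {l : Ln2}
    (hl : ∀ c, (0 ≤ l.1 c ∧ l.1 c < 2 ^ L) ∧ (0 ≤ l.2 c ∧ l.2 c < 2 ^ L)) {t : ℕ} (ht : t < 2 ^ L)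
    (c : Fin 2) : 0 ≤ pos L l t c ∧ pos L l t c < 2 * 2 ^ L := by
  have hp : (0 : ℤ) < 2 ^ L := by positivity
  have ht' : (t : ℤ) < 2 ^ L := by exact_mod_cast ht
  have ht0 : (0 : ℤ) ≤ t := by positivity
  obtain ⟨⟨h1, h2⟩, h3, h4⟩ := hl c
  unfold pos
  have h5 : 0 ≤ (t : ℤ) * l.2 c / 2 ^ L := Int.ediv_nonneg (mul_nonneg ht0 h3) hp.le
  have h6 : (t : ℤ) * l.2 c / 2 ^ L < 2 ^ L := by
    rw [Int.ediv_lt_iff_lt_mul hp]
    nlinarith
  constructor <;> linarith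

/-- the sum of the groups -/
lemma sum_groups (L : ℕ) (F : (Fin 2 → ℤ) × ℤ → ENNReal) (K : Finset Key)
    (hK : ∀ k ∈ K, ∀ c, -1 ≤ k.1 c ∧ k.1 c ≤ 1) :
    ∑ k ∈ K, ∑' z, Gk L F k z ^ (2 + 1) ≤ 36 * ∑' w, F w ^ (2 + 1) := by
  classical
  set S9 : Finset (Fin 2 → ℤ) := Fintype.piFinset (fun _ : Fin 2 => Finset.Icc (-1 : ℤ) 1) with hS9
  have hcard : #S9 = 9 := by
    rw [hS9, Fintype.card_piFinset]
    simp
  have hmem : ∀ k ∈ K, k.1 ∈ S9 := by
    intro k hk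
    rw [hS9, Fintype.mem_piFinset]
    exact fun c => mem_Icc.2 (hK k hk c)
  rw [← sum_fiberwise_of_maps_to hmem]
  have h1 : ∀ s ∈ S9, ∑ k ∈ K.filter (fun k => k.1 = s), ∑' z, Gk L F k z ^ (2 + 1) ≤
      4 * ∑' w, F w ^ (2 + 1) := by
    intro s _
    have hinj : Set.InjOn (Prod.snd : Key → (Fin 2 → ℤ) × ℤ) (K.filter (fun k => k.1 = s)) := by
      intro k hk k' hk' he
      have e1 := (mem_filter.1 (mem_coe.1 hk)).2
      have e2 := (mem_filter.1 (mem_coe.1 hk')).2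
      exact Prod.ext (e1.trans e2.symm) he
    have h2 : ∑ k ∈ K.filter (fun k => k.1 = s), ∑' z, Gk L F k z ^ (2 + 1) =
        ∑ p ∈ (K.filter (fun k => k.1 = s)).image Prod.snd, ∑' z, Gk L F (s, p) z ^ (2 + 1) := by
      rw [sum_image hinj]
      refine sum_congr rfl fun k hk => ?_
      have e1 := (mem_filter.1 hk).2
      have e3 : k = (s, k.2) := Prod.ext e1 rfl
      rw [← e3]
    rw [h2]
    refine (ENNReal.sum_le_tsum _).trans ?_
    have h3 : ∀ (p : (Fin 2 → ℤ) × ℤ) (z : (Fin 2 → ℤ) × ℕ), Gk L F (s, p) z ^ (2 + 1) =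
        (if (∀ c, 0 ≤ z.1 c ∧ z.1 c < 2 * 2 ^ L) ∧ z.2 < 2 ^ L then
          (fun w => shear s F w ^ (2 + 1)) (glue L p z) else 0) := by
      intro p z
      unfold Gk
      split_ifs
      · rfl
      · exact zero_pow (Nat.succ_ne_zero 2)
    simp_rw [h3]
    refine (overlap L (fun w => shear s F w ^ (2 + 1))).trans (le_of_eq ?_)
    rw [tsum_shear]
    norm_num
  refine (sum_le_sum h1).trans (le_of_eq ?_)
  rw [sum_const, hcard, nsmul_eq_mul, ← mul_assoc]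
  norm_num

/-- the Katz-Tao convex Wolff condition for tubes -/
def KTW {ι : Type} (Λ δ : ℝ) (I : Finset ι) (A e : ι → E3) : Prop := by
  classical exact ∀ W : Set E3, Convex ℝ W →
    ∑ i ∈ I.filter (fun i => tube δ (A i) (e i) ⊆ W), volume (tube δ (A i) (e i)) ≤
      ENNReal.ofReal Λ * volume W

/-- the lines of a group satisfy the Katz-Tao condition -/
lemma wkt_group {ι : Type} {L : ℕ} {δ Λ : ℝ} (hδ0 : 0 < δ) (hδ1 : δ ≤ 1) (hδ2 : 1 ≤ δ * 2 ^ L)
    (hδ : δ * 2 ^ L ≤ 2) {I : Finset ι} {A : ι → E3} {v : ι → Fin 2 → ℝ}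
    (hv : ∀ i ∈ I, ∀ c, |v i c| ≤ 1) (hΛ : 1 ≤ Λ) (hK : KTW Λ δ I A (fun i => dir (v i)))
    {q : ℤ × (Fin 2 → ℤ)} (hq1 : -2 ≤ q.1 ∧ q.1 ≤ 2) (hq2 : ∀ c, -8 ≤ q.2 c ∧ q.2 c ≤ 8)
    (k : Key) : by
      classical exact WKT (158760 * Λ) (I.filter (fun i => key L A v q i = k)) (lq L A v q) := by
  classical
  intro a b w1 w2 x0 y0 hab hw1 hw2
  have hpr : (0 : ℝ) < 2 ^ L := by positivity
  set W : Set E3 := PW L a b w1 w2 x0 y0 k.1 k.2.1 k.2.2 with hW
  have hsub : (I.filter (fun i => key L A v q i = k)).filter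
      (fun i => Vale.Agent.P117.K.inP a b w1 w2 x0 y0 (lq L A v q i)) ⊆
      I.filter (fun i => tube δ (A i) (dir (v i)) ⊆ W) := by
    intro i hi
    rw [mem_filter, mem_filter] at hi
    obtain ⟨⟨hiI, hk⟩, hin⟩ := hi
    rw [mem_filter]
    refine ⟨hiI, ?_⟩
    have ek1 : k.1 = sdig L (Yq L v i) := by rw [← hk]; rfl
    have ek2 : k.2.1 = kq L A v q i := by rw [← hk]; rfl
    have ek3 : k.2.2 = hq A q i := by rw [← hk]; rfl
    rw [hW, ek1, ek2, ek3]
    refine tube_sub_PW hδ0.le hδ1 hδ (hv i hiI) (x := (lq L A v q i).1) (y := (lq L A v q i).2)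
      ?_ ?_ ?_ hab hw1 hw2 hin
    · have f1 := Int.floor_le ((A i).ofLp (Fin.last 2))
      have f2 := Int.lt_floor_add_one ((A i).ofLp (Fin.last 2))
      have f3 : (-2 : ℝ) ≤ q.1 := by exact_mod_cast hq1.1
      have f4 : (q.1 : ℝ) ≤ 2 := by exact_mod_cast hq1.2
      unfold hq
      rw [Int.cast_add, abs_le]
      constructor <;> linarith
    · intro c
      have e1 := X_eq L A v q i c
      have e2 : Xq L A v q i c = xbase L (A i) (v i) (hq A q i) c + q.2 c := rfl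
      have e3 : (((lq L A v q i).1 c : ℤ) : ℝ) + 2 ^ L * (kq L A v q i c + hq A q i *
          sdig L (Yq L v i) c) = (xbase L (A i) (v i) (hq A q i) c : ℝ) + q.2 c := by
        exact_mod_cast (e1.symm.trans e2)
      rw [e3]
      unfold xbase
      have f1 := Int.floor_le ((2 : ℝ) ^ L * ((A i).ofLp (Fin.castSucc c) -
        (A i).ofLp (Fin.last 2) * v i c + hq A q i * v i c))
      have f2 := Int.lt_floor_add_one ((2 : ℝ) ^ L * ((A i).ofLp (Fin.castSucc c) -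
        (A i).ofLp (Fin.last 2) * v i c + hq A q i * v i c))
      have f3 : (-8 : ℝ) ≤ q.2 c := by exact_mod_cast (hq2 c).1
      have f4 : (q.2 c : ℝ) ≤ 8 := by exact_mod_cast (hq2 c).2
      rw [abs_le]
      constructor <;> linarith
    · intro c
      have e1 := Y_eq L v i c
      have e2 : (2 : ℝ) ^ L * sdig L (Yq L v i) c + (((lq L A v q i).2 c : ℤ) : ℝ) =
          (Yq L v i c : ℝ) := by
        have : (lq L A v q i).2 c = ydig L (Yq L v i) c := rfl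
        rw [this]
        exact_mod_cast e1.symm
      rw [e2]
      unfold Yq
      have f1 := Int.floor_le ((2 : ℝ) ^ L * v i c)
      have f2 := Int.lt_floor_add_one ((2 : ℝ) ^ L * v i c)
      rw [abs_le]
      constructor <;> linarith
  have hcard := card_le_card hsub
  set T := I.filter (fun i => tube δ (A i) (dir (v i)) ⊆ W) with hT
  have h1 : ∑ i ∈ T, volume (tube δ (A i) (dir (v i))) ≤ ENNReal.ofReal Λ * volume W :=
    hK W (convex_PW _ _ _ _ _ _ _ _ _ _)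
  have h2 : ENNReal.ofReal ((#T : ℝ) * ((2 / (2 + 1)) ^ 2 * δ ^ 2)) ≤
      ENNReal.ofReal (Λ * (70560 * (w1 * w2) / 2 ^ (2 * L))) := by
    calc ENNReal.ofReal ((#T : ℝ) * ((2 / (2 + 1)) ^ 2 * δ ^ 2))
        = ∑ i ∈ T, ENNReal.ofReal ((2 / (2 + 1)) ^ 2 * δ ^ 2) := by
          rw [sum_const, nsmul_eq_mul, ENNReal.ofReal_mul (by positivity), ENNReal.ofReal_natCast]
      _ ≤ ∑ i ∈ T, volume (tube δ (A i) (dir (v i))) := by
          refine sum_le_sum fun i _ => ?_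
          have := volume_tube_ge (m := 2) hδ0 (A i) (dir (v i)) (norm_dir _)
          push_cast at this
          exact this
      _ ≤ ENNReal.ofReal Λ * volume W := h1
      _ ≤ ENNReal.ofReal Λ * ENNReal.ofReal (70560 * (w1 * w2) / 2 ^ (2 * L)) :=
          mul_le_mul_right (volume_PW L hab (by linarith) (by linarith) _ _ _ _ _) _
      _ = _ := (ENNReal.ofReal_mul (by linarith)).symm
  have h3 : (#T : ℝ) * ((2 / (2 + 1)) ^ 2 * δ ^ 2) ≤ Λ * (70560 * (w1 * w2) / 2 ^ (2 * L)) :=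
    (ENNReal.ofReal_le_ofReal_iff (by
      have : 0 ≤ w1 := by linarith
      have : 0 ≤ w2 := by linarith
      positivity)).1 h2
  have h4 : (#T : ℝ) ≤ 158760 * Λ * (w1 * w2) := by
    have e1 : (2 : ℝ) ^ (2 * L) = 2 ^ L * 2 ^ L := by rw [← pow_add]; congr 1; ring
    rw [e1, mul_div_assoc', le_div_iff₀ (by positivity)] at h3
    have h5 : (1 : ℝ) ≤ (δ * 2 ^ L) ^ 2 := one_le_pow₀ hδ2
    have h6 : (#T : ℝ) * 1 ≤ (#T : ℝ) * (δ * 2 ^ L) ^ 2 :=
      mul_le_mul_of_nonneg_left h5 (Nat.cast_nonneg _)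
    nlinarith
  refine le_trans ?_ h4
  have := (Nat.cast_le (α := ℝ)).2 hcard
  convert this

/-- **the maximal inequality for a family of tubes with slopes at most one** -/
theorem slope_fam {ε : ℝ} (hε : 0 < ε) : ∃ C : ℝ, 0 < C ∧ ∀ (ι : Type) (I : Finset ι)
    (A : ι → E3) (v : ι → Fin 2 → ℝ) (δ Λ : ℝ), 0 < δ → δ < 1 → 1 ≤ Λ →
    (∀ i ∈ I, ∀ c, |v i c| ≤ 1) → KTW Λ δ I A (fun i => dir (v i)) →
    ∀ f : E3 → ENNReal, Measurable f →
    ∑ i ∈ I, (∫⁻ x in tube δ (A i) (dir (v i)), f x) ^ (2 + 1) ≤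
      ENNReal.ofReal (C * Λ ^ (1 + ε) * δ ^ (-ε) * δ ^ 4) * ∫⁻ x, f x ^ (2 + 1) := by
  classical
  obtain ⟨C, hC, H⟩ := kt_fam hε
  refine ⟨1445 ^ 4 * 36 * C * (158760 : ℝ) ^ (1 + ε) * 2 ^ ε, by positivity, ?_⟩
  intro ι I A v δ Λ hδ0 hδ1 hΛ hv hK f hf
  obtain ⟨L, hL1, hL2⟩ := exists_scale hδ0 hδ1
  have hpr : (0 : ℝ) < 2 ^ L := by positivity
  set Q : Finset (ℤ × (Fin 2 → ℤ)) := Finset.Icc (-2 : ℤ) 2 ×ˢ
    Fintype.piFinset fun _ : Fin 2 => Finset.Icc (-8 : ℤ) 8 with hQ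
  have hcardQ : #Q = 1445 := by
    rw [hQ, card_product, Fintype.card_piFinset]
    simp
  set F := cavg L f with hF
  set B : ι → (ℤ × (Fin 2 → ℤ)) → ENNReal := fun i q =>
    ∑ t ∈ range (2 ^ L), F (ccell L (A i) (v i) (q, t)) with hB
  set R : ENNReal := ENNReal.ofReal (C * (158760 * Λ) ^ (1 + ε) * (2 : ℝ) ^ (ε * L) *
    2 ^ (2 * L)) with hR
  set S : ENNReal := ∑' w, F w ^ (2 + 1) with hS
  -- one tube
  have h1 : ∀ i ∈ I, 2 ^ ((2 + 1) * L) * ∫⁻ x in tube δ (A i) (dir (v i)), f x ≤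
      ∑ q ∈ Q, B i q := by
    intro i hi
    have g1 : ∫⁻ x in tube δ (A i) (dir (v i)), f x ≤
        ∑ q ∈ cidx 2 L, ∫⁻ x in cub L ⁻¹' {ccell L (A i) (v i) q}, f x :=
      (lintegral_mono_set (tube_cover hδ1.le hL2 (A i) (hv i hi))).trans
        (setLIntegral_biUnion_le _ _ _ _)
    refine (mul_le_mul_right g1 _).trans (le_of_eq ?_)
    rw [mul_sum]
    change ∑ q ∈ cidx 2 L, cavg L f (ccell L (A i) (v i) q) = _
    unfold cidx
    rw [sum_product]
  -- one offset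
  have h2 : ∀ q ∈ Q, ∑ i ∈ I, B i q ^ (2 + 1) ≤ R * (36 * S) := by
    intro q hq
    rw [hQ, mem_product, mem_Icc, Fintype.mem_piFinset] at hq
    have hq2 : ∀ c, -8 ≤ q.2 c ∧ q.2 c ≤ 8 := fun c => mem_Icc.1 (hq.2 c)
    rw [← sum_fiberwise_of_maps_to (s := I) (t := I.image (key L A v q)) (g := key L A v q)
      (fun i hi => mem_image_of_mem _ hi)]
    have h3 : ∀ k ∈ I.image (key L A v q),
        ∑ i ∈ I.filter (fun i => key L A v q i = k), B i q ^ (2 + 1) ≤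
          R * ∑' z, Gk L F k z ^ (2 + 1) := by
      intro k _
      have h4 := H ι L (I.filter (fun i => key L A v q i = k)) (lq L A v q) (158760 * Λ)
        (by linarith) (fun i _ c => lq_box L A v q i c)
        (wkt_group hδ0 hδ1.le hL1 hL2 hv hΛ hK hq.1 hq2 k) (Gk L F k)
      refine le_trans (le_of_eq ?_) h4
      refine sum_congr rfl fun i hi => ?_
      congr 1
      refine sum_congr rfl fun t ht => ?_
      have hk := (mem_filter.1 hi).2
      have ht' := mem_range.1 ht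
      unfold Gk
      rw [if_pos ⟨fun c => pos_box (lq_box L A v q i) ht' c, ht'⟩, ccell_eq L A v q i t F, hk]
    refine (sum_le_sum h3).trans ?_
    rw [← mul_sum]
    refine mul_le_mul_right (sum_groups L F _ fun k hk c => ?_) _
    obtain ⟨i, hi, rfl⟩ := mem_image.1 hk
    change -1 ≤ sdig L (Yq L v i) c ∧ sdig L (Yq L v i) c ≤ 1
    have hp : (0 : ℤ) < 2 ^ L := by positivity
    have hvi := abs_le.1 (hv i hi c)
    have hy1 : -(2 : ℤ) ^ L ≤ Yq L v i c := by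
      unfold Yq
      rw [Int.le_floor, Int.cast_neg, Int.cast_pow, Int.cast_ofNat]
      have := mul_le_mul_of_nonneg_left hvi.1 hpr.le
      linarith
    have hy2 : Yq L v i c ≤ (2 : ℤ) ^ L := by
      have : ⌊(2 : ℝ) ^ L * v i c⌋ ≤ ⌊(((2 : ℤ) ^ L : ℤ) : ℝ)⌋ := by
        refine Int.floor_le_floor ?_
        rw [Int.cast_pow, Int.cast_ofNat]
        have := mul_le_mul_of_nonneg_left hvi.2 hpr.le
        linarith
      rwa [Int.floor_intCast] at this
    unfold sdig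
    constructor
    · rw [Int.le_ediv_iff_mul_le hp]
      linarith
    · have : Yq L v i c / 2 ^ L < 2 := by
        rw [Int.ediv_lt_iff_lt_mul hp]
        linarith
      exact Int.lt_add_one_iff.1 this
  -- the sum
  have h5 : ∑ i ∈ I, (2 ^ ((2 + 1) * L) * ∫⁻ x in tube δ (A i) (dir (v i)), f x) ^ (2 + 1) ≤
      1445 ^ 4 * (R * (36 * S)) := by
    calc _ ≤ ∑ i ∈ I, (1445 : ENNReal) ^ (2 + 1) * ∑ q ∈ Q, B i q ^ (2 + 1) := by
          refine sum_le_sum fun i hi => ?_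
          refine (pow_le_pow_left' (h1 i hi) _).trans ?_
          have := sum_pow_le Q (B i) (n := 2 + 1) (by norm_num)
          rw [hcardQ] at this
          exact_mod_cast this
      _ = (1445 : ENNReal) ^ (2 + 1) * ∑ q ∈ Q, ∑ i ∈ I, B i q ^ (2 + 1) := by
          rw [← mul_sum, sum_comm]
      _ ≤ (1445 : ENNReal) ^ (2 + 1) * ∑ _q ∈ Q, R * (36 * S) :=
          mul_le_mul_right (sum_le_sum h2) _
      _ = _ := by
          rw [sum_const, hcardQ, nsmul_eq_mul, ← mul_assoc]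
          norm_num
  have h6 : S ≤ 2 ^ ((2 + 1) * L) * ∫⁻ x, f x ^ (2 + 1) := tsum_cavg_le L hf
  have h7 : ∀ i, (∫⁻ x in tube δ (A i) (dir (v i)), f x) ^ (2 + 1) =
      ENNReal.ofReal (1 / 2 ^ (9 * L)) *
        (2 ^ ((2 + 1) * L) * ∫⁻ x in tube δ (A i) (dir (v i)), f x) ^ (2 + 1) := by
    intro i
    rw [mul_pow, ← mul_assoc]
    have : ENNReal.ofReal (1 / 2 ^ (9 * L)) * (2 ^ ((2 + 1) * L)) ^ (2 + 1) = 1 := by
      rw [show (2 : ENNReal) = ENNReal.ofReal 2 by norm_num, ← ENNReal.ofReal_pow (by norm_num),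
        ← ENNReal.ofReal_pow (by positivity), ← ENNReal.ofReal_mul (by positivity),
        ← ENNReal.ofReal_one]
      congr 1
      rw [← pow_mul, show (2 + 1) * L * (2 + 1) = 9 * L by ring]
      field_simp
    rw [this, one_mul]
  have hΛ0 : 0 < Λ := by linarith
  have h2L : (2 : ℝ) ^ (ε * L) ≤ 2 ^ ε * δ ^ (-ε) := by
    have h3 : (2 : ℝ) ^ L ≤ 2 * δ⁻¹ := by
      rw [← div_eq_mul_inv, le_div_iff₀ hδ0]
      linarith
    have h4 : (2 : ℝ) ^ (ε * L) = ((2 : ℝ) ^ L) ^ ε := by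
      rw [← Real.rpow_natCast, ← Real.rpow_mul (by norm_num)]
      congr 1
      ring
    rw [h4]
    refine (Real.rpow_le_rpow (by positivity) h3 hε.le).trans (le_of_eq ?_)
    rw [Real.mul_rpow (by norm_num) (by positivity), Real.inv_rpow hδ0.le,
      Real.rpow_neg hδ0.le]
  have h4L : 1 / (2 : ℝ) ^ (4 * L) ≤ δ ^ 4 := by
    rw [show 4 * L = L * 4 by ring, pow_mul, ← one_div_pow]
    refine pow_le_pow_left₀ (by positivity) ?_ 4
    rw [div_le_iff₀ hpr]
    exact hL1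
  calc ∑ i ∈ I, (∫⁻ x in tube δ (A i) (dir (v i)), f x) ^ (2 + 1)
      = ENNReal.ofReal (1 / 2 ^ (9 * L)) *
        ∑ i ∈ I, (2 ^ ((2 + 1) * L) * ∫⁻ x in tube δ (A i) (dir (v i)), f x) ^ (2 + 1) := by
        rw [mul_sum]
        exact sum_congr rfl fun i _ => h7 i
    _ ≤ ENNReal.ofReal (1 / 2 ^ (9 * L)) * (1445 ^ 4 * (R * (36 *
          (2 ^ ((2 + 1) * L) * ∫⁻ x, f x ^ (2 + 1))))) :=
        mul_le_mul_right (h5.trans (mul_le_mul_right (mul_le_mul_right (mul_le_mul_right h6 _) _) _)) _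
    _ = ENNReal.ofReal (1445 ^ 4 * 36 * C * (158760 : ℝ) ^ (1 + ε) * Λ ^ (1 + ε) *
          (2 : ℝ) ^ (ε * L) * (1 / 2 ^ (4 * L))) * ∫⁻ x, f x ^ (2 + 1) := by
        have e1 : (1445 : ENNReal) ^ 4 = ENNReal.ofReal (1445 ^ 4) := by
          rw [ENNReal.ofReal_pow (by norm_num)]
          norm_num
        have e2 : (36 : ENNReal) = ENNReal.ofReal 36 := by norm_num
        have e3 : (2 : ENNReal) ^ ((2 + 1) * L) = ENNReal.ofReal (2 ^ ((2 + 1) * L)) := by
          rw [ENNReal.ofReal_pow (by norm_num)]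
          norm_num
        rw [e1, e2, e3, hR]
        calc _ = (ENNReal.ofReal (1 / 2 ^ (9 * L)) * ENNReal.ofReal (1445 ^ 4) *
              ENNReal.ofReal (C * (158760 * Λ) ^ (1 + ε) * (2 : ℝ) ^ (ε * L) * 2 ^ (2 * L)) *
              ENNReal.ofReal 36 * ENNReal.ofReal (2 ^ ((2 + 1) * L))) *
              ∫⁻ x, f x ^ (2 + 1) := by ring
          _ = _ := by
            rw [← ENNReal.ofReal_mul (by positivity), ← ENNReal.ofReal_mul (by positivity),
              ← ENNReal.ofReal_mul (by positivity), ← ENNReal.ofReal_mul (by positivity)]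
            congr 2
            rw [Real.mul_rpow (by norm_num) hΛ0.le,
              show 9 * L = 2 * L + (2 + 1) * L + 4 * L by ring, pow_add, pow_add]
            field_simp
    _ ≤ _ := by
        refine mul_le_mul_left (ENNReal.ofReal_le_ofReal ?_) _
        calc 1445 ^ 4 * 36 * C * (158760 : ℝ) ^ (1 + ε) * Λ ^ (1 + ε) *
              (2 : ℝ) ^ (ε * L) * (1 / 2 ^ (4 * L))
            ≤ 1445 ^ 4 * 36 * C * (158760 : ℝ) ^ (1 + ε) * Λ ^ (1 + ε) *
              (2 ^ ε * δ ^ (-ε)) * δ ^ 4 := by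
              gcongr
          _ = _ := by ring

end Vale.Agent.P127.H864
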